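import Vale.Agent.P281Z.Mf.Fib
import Vale.Agent.P272.K.AMP.Prod.Metric

/-!
# P281Z, toolbox: products, graphs, fibre products
-/

open scoped Manifold ContDiff Topology
open Set Filter Function
open Vale.Agent.P272.K Vale.Agent.P285.H281.FD Vale.Agent.P272.K.Prod
open Vale.Agent.P277Z (Hol Nz gen at_chart trans_an hol_const)
open Vale.Agent.P277Z.Slc (Ind LEq Snc dd tr)
open Vale.Agent.P277.HD (pull)

set_option linter.unusedSectionVars false

noncomputable section

namespace Vale.Agent.P281Z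

variable {n p q r : ℕ}

/-- the product -/
def Mf.prod (V : Mf n) (W : Mf p) : Mf (n + p) :=
  { X := V.X × W.X, ch := prodCS n p V.X W.X, mf := isManifold_prod }

/-- the first projection -/
def Mf.p1 (V : Mf n) (W : Mf p) (z : (V.prod W).X) : V.X := Prod.fst z

/-- the second projection -/
def Mf.p2 (V : Mf n) (W : Mf p) (z : (V.prod W).X) : W.X := Prod.snd z

/-- pairs -/
def Mf.pair (V : Mf n) (W : Mf p) (x : V.X) (y : W.X) : (V.prod W).X := (x, y)

variable {V : Mf n} {W : Mf p}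

@[simp] theorem p1_pair (x : V.X) (y : W.X) : V.p1 W (V.pair W x y) = x := rfl

@[simp] theorem p2_pair (x : V.X) (y : W.X) : V.p2 W (V.pair W x y) = y := rfl

@[simp] theorem pair_eta (z : (V.prod W).X) : V.pair W (V.p1 W z) (V.p2 W z) = z := rfl

theorem prod_ext {z z' : (V.prod W).X} (h : V.p1 W z = V.p1 W z') (h' : V.p2 W z = V.p2 W z') :
    z = z' := Prod.ext h h'

theorem pair_inj {x x' : V.X} {y y' : W.X} : V.pair W x y = V.pair W x' y' ↔ x = x' ∧ y = y' :=
  Prod.ext_iff

theorem Mf.Kah.prod (h : V.Kah) (h' : W.Kah) : (V.prod W).Kah :=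
  let ⟨_, k⟩ := h
  let ⟨_, k'⟩ := h'
  ⟨_, pm_kahler k k'⟩

theorem prod_conn [ConnectedSpace V.X] [ConnectedSpace W.X] : ConnectedSpace (V.prod W).X :=
  inferInstanceAs (ConnectedSpace (V.X × W.X))

theorem cont_p1 : Continuous (V.p1 W) := continuous_fst

theorem cont_p2 : Continuous (V.p2 W) := continuous_snd

/-- the product chart -/
def Mf.pc (V : Mf n) (W : Mf p) (e : Chart n V.X) (e' : Chart p W.X) : Chart (n + p) (V.prod W).X :=
  Prod.pc e e'

theorem at_prod {e : Chart n V.X} {e' : Chart p W.X} {x : V.X} {y : W.X} (h : At e x)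
    (h' : At e' y) : At (V.pc W e e') (V.pair W x y) := at_pc h h'

theorem at_prod' {e : Chart n V.X} {e' : Chart p W.X} {z : (V.prod W).X} (h : At e (V.p1 W z))
    (h' : At e' (V.p2 W z)) : At (V.pc W e e') z := at_pc h h'

theorem at_prod_dec {E : Chart (n + p) (V.prod W).X} {z : (V.prod W).X} (h : At E z) :
    ∃ e e', E = V.pc W e e' ∧ At e (V.p1 W z) ∧ At e' (V.p2 W z) := at_dec h

theorem pc_pair (e : Chart n V.X) (e' : Chart p W.X) (x : V.X) (y : W.X) :
    V.pc W e e' (V.pair W x y) = Prod.glue (e x) (e' y) := rfl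

theorem pc_symm (e : Chart n V.X) (e' : Chart p W.X) (w : Cm (n + p)) :
    (V.pc W e e').symm w = V.pair W (e.symm (fstP w)) (e'.symm (sndP w)) := rfl

theorem hol_p1 : HolM (n + p) n (V.p1 W) := fun z => by
  have he := at_chart (n := n) (V.p1 W z)
  refine HolA.of_an cont_p1.continuousAt (at_prod' he (at_chart _)) he ?_
  exact AnalyticAt.fun_comp (f := fstP) (g := fun w => chartAt (Cm n) (V.p1 W z)
    ((chartAt (Cm n) (V.p1 W z)).symm w)) ((fstP_glue _ _).symm ▸ trans_an he he)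
    contDiff_fstP.contDiffAt.analyticAt

theorem hol_p2 : HolM (n + p) p (V.p2 W) := fun z => by
  have he := at_chart (n := p) (V.p2 W z)
  refine HolA.of_an cont_p2.continuousAt (at_prod' (at_chart _) he) he ?_
  exact AnalyticAt.fun_comp (f := sndP) (g := fun w => chartAt (Cm p) (V.p2 W z)
    ((chartAt (Cm p) (V.p2 W z)).symm w)) ((sndP_glue _ _).symm ▸ trans_an he he)
    contDiff_sndP.contDiffAt.analyticAt

variable {Z : Type} [TopologicalSpace Z] [ChartedSpace (Cm q) Z] [IsManifold 𝓘(ℂ, Cm q) ω Z]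
  {f : Z → V.X} {g : Z → W.X} {z : Z}

theorem HolA.pair (hf : HolA q n f z) (hg : HolA q p g z) :
    HolA q (n + p) (fun z => V.pair W (f z) (g z)) z :=
  .of_an (hf.cont.prodMk hg.cont) (at_chart z) (at_prod (at_chart (f z)) (at_chart (g z)))
    (contDiff_glue (hf.an (at_chart z) (at_chart _)).contDiffAt
      (hg.an (at_chart z) (at_chart _)).contDiffAt).analyticAt

theorem HolM.pair (hf : HolM q n f) (hg : HolM q p g) :
    HolM q (n + p) fun z => V.pair W (f z) (g z) := fun z => (hf.at z).pair (hg.at z)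

theorem sbm_p1 (z : (V.prod W).X) : Sbm (n + p) n (V.p1 W) z :=
  Sbm.of_comp (f := fun x => V.pair W x (V.p2 W z)) (x := V.p1 W z) (hol_p1.at _)
    ((holM_id.pair (holM_const _)).at _) (sbm_id _)

theorem sbm_p2 (z : (V.prod W).X) : Sbm (n + p) p (V.p2 W) z :=
  Sbm.of_comp (f := fun y => V.pair W (V.p1 W z) y) (x := V.p2 W z) (hol_p2.at _)
    (((holM_const _).pair holM_id).at _) (sbm_id _)

theorem df_pair (hf : HolA q n f z) (hg : HolA q p g z) {c : Chart q Z} {e : Chart n V.X}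
    {e' : Chart p W.X} (hc : At c z) (he : At e (f z)) (he' : At e' (g z)) (v : Cm q) :
    df (fun z => V.pair W (f z) (g z)) c (V.pc W e e') z v =
      Prod.glue (df f c e z v) (df g c e' z v) := by
  funext a
  rw [df_apply (hf.pair hg) hc (at_prod he he')]
  refine Fin.addCases (fun a => ?_) (fun a => ?_) a
  · rw [glue_castAdd, df_apply hf hc he]
    exact congrArg (fun F => dd F c z v) (funext fun y => glue_castAdd _ _ a)
  · rw [glue_natAdd, df_apply hg hc he']
    exact congrArg (fun F => dd F c z v) (funext fun y => glue_natAdd _ _ a)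

theorem imm_pair (hf : HolA q n f z) (hg : HolA q p g z) {c : Chart q Z} {e : Chart n V.X}
    {e' : Chart p W.X} (hc : At c z) (he : At e (f z)) (he' : At e' (g z)) :
    Imm q (n + p) (fun z => V.pair W (f z) (g z)) z ↔
      ∀ v, df f c e z v = 0 → df g c e' z v = 0 → v = 0 := by
  have h : Injective (df (fun z => V.pair W (f z) (g z)) c (V.pc W e e') z) ↔
      ∀ v, df f c e z v = 0 → df g c e' z v = 0 → v = 0 := by
    rw [injective_iff_map_eq_zero]
    refine forall_congr' fun v => ?_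
    rw [df_pair hf hg hc he he', ← and_imp]
    refine imp_congr_left ⟨fun k => ⟨?_, ?_⟩, fun k => ?_⟩
    · exact (fstP_glue _ _).symm.trans (congrArg fstP k)
    · exact (sndP_glue _ _).symm.trans (congrArg sndP k)
    · rw [k.1, k.2]
      exact glue_fst_snd 0
  exact ⟨fun k => h.1 (k _ _ hc (at_prod he he')), fun k =>
    .of_chart (hf.pair hg) hc (at_prod he he') (h.2 k)⟩

theorem sbm_pair (hf : HolA q n f z) (hg : HolA q p g z) {c : Chart q Z} {e : Chart n V.X}
    {e' : Chart p W.X} (hc : At c z) (he : At e (f z)) (he' : At e' (g z)) :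
    Sbm q (n + p) (fun z => V.pair W (f z) (g z)) z ↔
      ∀ a b, ∃ v, df f c e z v = a ∧ df g c e' z v = b := by
  refine ⟨fun k a b => (k _ _ hc (at_prod he he') (Prod.glue a b)).imp fun v hv => ?_, fun k =>
    .of_chart (hf.pair hg) hc (at_prod he he') fun w => (k (fstP w) (sndP w)).imp fun v hv => ?_⟩
  · rw [df_pair hf hg hc he he'] at hv
    exact ⟨by simpa using congrArg fstP hv, by simpa using congrArg sndP hv⟩
  · rw [df_pair hf hg hc he he', hv.1, hv.2, glue_fst_snd]

theorem Imm.pair_left (h : Imm q n f z) (hf : HolA q n f z) (hg : HolA q p g z) :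
    Imm q (n + p) (fun z => V.pair W (f z) (g z)) z := .of_comp (hol_p1.at _) (hf.pair hg) h

theorem Imm.pair_right (h : Imm q p g z) (hf : HolA q n f z) (hg : HolA q p g z) :
    Imm q (n + p) (fun z => V.pair W (f z) (g z)) z := .of_comp (hol_p2.at _) (hf.pair hg) h

/-- the graph -/
theorem emb_graph {g : V.X → W.X} (hg : HolM n p g) :
    Emb n (n + p) (fun x => V.pair W x (g x)) {z | g (V.p1 W z) = V.p2 W z} :=
  ⟨holM_id.pair hg, fun _ _ k => (pair_inj.1 k).1,
    fun x => (imm_id x).pair_left (holM_id.at x) (hg.at x),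
    ext fun z => ⟨fun ⟨_, k⟩ => k ▸ rfl, fun k => ⟨V.p1 W z, prod_ext rfl k⟩⟩⟩

theorem emb_graph' {f : W.X → V.X} (hf : HolM p n f) :
    Emb p (n + p) (fun y => V.pair W (f y) y) {z | f (V.p2 W z) = V.p1 W z} :=
  ⟨hf.pair holM_id, fun _ _ k => (pair_inj.1 k).2,
    fun y => (imm_id y).pair_right (hf.at y) (holM_id.at y),
    ext fun z => ⟨fun ⟨_, k⟩ => k ▸ rfl, fun k => ⟨V.p2 W z, prod_ext k rfl⟩⟩⟩

theorem emb_slice1 (y : W.X) : Emb n (n + p) (fun x => V.pair W x y) (V.p2 W ⁻¹' {y}) := by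
  have h := emb_graph (V := V) (holM_const y)
  exact ⟨h.hol, h.inj, h.imm, h.rng.trans (ext fun _ => eq_comm)⟩

theorem emb_slice2 (x : V.X) : Emb p (n + p) (fun y => V.pair W x y) (V.p1 W ⁻¹' {x}) := by
  have h := emb_graph' (W := W) (holM_const x)
  exact ⟨h.hol, h.inj, h.imm, h.rng.trans (ext fun _ => eq_comm)⟩

theorem fibn_p1 [ConnectedSpace W.X] : Fibn (n + p) n (V.p1 W) :=
  .of_all hol_p1 fun x => (emb_slice2 x).conn.1 inferInstance

theorem fibn_p2 [ConnectedSpace V.X] : Fibn (n + p) p (V.p2 W) :=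
  .of_all hol_p2 fun y => (emb_slice1 y).conn.1 inferInstance

/-! ### fibre products -/

variable {Y : Type} [TopologicalSpace Y] [ChartedSpace (Cm r) Y] [IsManifold 𝓘(ℂ, Cm r) ω Y]
  {a : V.X → Y} {b : W.X → Y}

/-- the fibre product -/
def fp (a : V.X → Y) (b : W.X → Y) : Set (V.prod W).X := {z | a (V.p1 W z) = b (V.p2 W z)}

theorem fp_an [T2Space Y] (ha : HolM n r a) (hb : HolM p r b) : An (n + p) (fp a b) :=
  an_eq (ha.comp hol_p1) (hb.comp hol_p2)

theorem fp_ind {z : (V.prod W).X} (ha : HolA n r a (V.p1 W z)) (hb : HolA p r b (V.p2 W z))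
    (hz : z ∈ fp a b) (h : Sbm n r a (V.p1 W z) ∨ Sbm p r b (V.p2 W z)) {e : Chart r Y}
    (he : At e (a (V.p1 W z))) :
    Ind (n + p) (fun i w => e (a (V.p1 W w)) i - e (b (V.p2 W w)) i) z := by
  have hz' : a (V.p1 W z) = b (V.p2 W z) := hz
  have he' : At e (b (V.p2 W z)) := hz' ▸ he
  have h0 : ∀ i, Hol (n + p) (fun w => e (a (V.p1 W w)) i - e (b (V.p2 W w)) i) z := fun i =>
    ((ha.cmp (hol_p1.at z)).hol (hol_chart he i)).sub ((hb.cmp (hol_p2.at z)).hol (hol_chart he' i))
  rcases h with h | h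
  · refine ind_of_comp (f := fun x => V.pair W x (V.p2 W z)) (x := V.p1 W z)
      ((holM_id.pair (holM_const _)).at _) h0 ?_
    simpa only [p1_pair, p2_pair, hz'] using fib_ind ha h he
  · refine ind_of_comp (f := fun y => V.pair W (V.p1 W z) y) (x := V.p2 W z)
      (((holM_const _).pair holM_id).at _) h0 ?_
    have k := fib_ind hb h he'
    refine ⟨fun i => (hol_const (e (a (V.p1 W z)) i) _).sub (hb.hol (hol_chart he' i)),
      fun c hc => ?_⟩
    have k1 := (k.2 c hc).neg
    refine (congrArg (fun v : Fin r → Cm p →L[ℂ] ℂ => LinearIndependent ℂ v)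
      (funext fun i => ?_)).mp k1
    simp only [p1_pair, p2_pair, hz', Pi.neg_apply, dd, ← fderiv_fun_neg, neg_sub]

theorem fp_subM {d : ℕ} (hd : d + r = n + p) (ha : HolM n r a) (hb : HolM p r b)
    {O : Set (V.prod W).X} (hO : IsOpen O)
    (h : ∀ z ∈ fp a b ∩ O, Sbm n r a (V.p1 W z) ∨ Sbm p r b (V.p2 W z)) :
    SubM (n + p) d (fp a b ∩ O) := fun z hz => by
  have he := at_chart (n := r) (a (V.p1 W z))
  have he' : At (chartAt (Cm r) (a (V.p1 W z))) (b (V.p2 W z)) :=
    (show a (V.p1 W z) = b (V.p2 W z) from hz.1) ▸ he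
  refine ⟨r, _, hd, fp_ind (ha.at _) (hb.at _) hz.1 (h z hz) he, ?_⟩
  filter_upwards [hO.mem_nhds hz.2, (ha.comp hol_p1).cont.continuousAt.eventually (at_near he),
    (hb.comp hol_p2).cont.continuousAt.eventually (at_near he')] with w k1 k2 k3
  simp only [sub_eq_zero, ← funext_iff]
  exact ⟨fun k => congrArg _ k.1, fun k => ⟨(chartAt (Cm r) (a (V.p1 W z))).injOn k2.2 k3.2 k, k1⟩⟩

end Vale.Agent.P281Z
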