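import Vale.Agent.P281Z.Mf.Api

/-!
# P281Z, toolbox: local coordinates, sections, retractions, inverses; embeddings
-/

open scoped Manifold ContDiff Topology
open Set Filter Function
open Vale.Agent.P272.K Vale.Agent.P285.H281.FD
open Vale.Agent.P277Z (Hol Nz gen at_chart trans_an hol_const)
open Vale.Agent.P277Z.Slc (Ind LEq Snc dd tr)

set_option linter.unusedSectionVars false

noncomputable section

namespace Vale.Agent.P281Z

variable {n p q : ℕ} {X Y Z : Type} [TopologicalSpace X] [ChartedSpace (Cm n) X]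
  [TopologicalSpace Y] [ChartedSpace (Cm p) Y] [TopologicalSpace Z] [ChartedSpace (Cm q) Z]
  {E : Type} [NormedAddCommGroup E] [NormedSpace ℂ E]
  {f : X → Y} {x : X} {e : Chart n X} {e' : Chart p Y}

variable (n) in
/-- the vector valued function `F` is holomorphic at `x` -/
def AnV (F : X → E) (x : X) : Prop :=
  ∀ e : Chart n X, At e x → AnalyticAt ℂ (fun z => F (e.symm z)) (e x)

theorem AnV.cont {F : X → E} (h : AnV n F x) : ContinuousAt F x := by
  have he := at_chart (n := n) x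
  exact ((h _ he).continuousAt.comp ((chartAt (Cm n) x).continuousAt he.2)).congr
    ((P277Z.At.left he).mono fun y hy => congrArg F hy)

theorem AnV.pi {α : Type} [Fintype α] {F : X → α → ℂ} (h : ∀ a, Hol n (fun y => F y a) x) :
    AnV n F x := fun e he => AnalyticAt.pi fun a => h a e he

theorem AnV.hol {α : Type} [Fintype α] {F : X → α → ℂ} (h : AnV n F x) (a : α) :
    Hol n (fun y => F y a) x := fun e he => analyticAt_pi_iff.1 (h e he) a

theorem AnV.cmp {E' : Type} [NormedAddCommGroup E'] [NormedSpace ℂ E'] {F : X → E} {G : E → E'}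
    (h : AnV n F x) (hG : AnalyticAt ℂ G (F x)) : AnV n (fun y => G (F y)) x := fun e he =>
  AnalyticAt.fun_comp (g := G) (f := fun z => F (e.symm z)) (by rw [he.left_inv]; exact hG) (h e he)

theorem AnV.prod {E' : Type} [NormedAddCommGroup E'] [NormedSpace ℂ E'] {F : X → E} {G : X → E'}
    (h : AnV n F x) (hG : AnV n G x) : AnV n (fun y => (F y, G y)) x := fun e he =>
  (h e he).prod (hG e he)

theorem anV_const (c : E) (x : X) : AnV n (fun _ => c) x := fun _ _ => analyticAt_const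

variable (n) in
/-- `Θ` is a system of holomorphic coordinates with values in `E` -/
structure Co (Θ : OpenPartialHomeomorph X E) : Prop where
  an : ∀ y ∈ Θ.source, AnV n Θ y
  inv : ∀ v ∈ Θ.target, ∀ e : Chart n X, At e (Θ.symm v) → AnalyticAt ℂ (fun v => e (Θ.symm v)) v

variable [IsManifold 𝓘(ℂ, Cm n) ω X] [IsManifold 𝓘(ℂ, Cm p) ω Y] [IsManifold 𝓘(ℂ, Cm q) ω Z]

theorem anV_chart (he : At e x) : AnV n e x := fun _ he' => trans_an he he'

theorem HolA.anV (h : HolA n p f x) (he' : At e' (f x)) : AnV n (fun y => e' (f y)) x :=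
  fun _ he => h.an he he'

theorem co_chart (he : e ∈ atlas (Cm n) X) : Co n e :=
  ⟨fun _ hy => anV_chart ⟨he, hy⟩, fun v hv _ h => by
    simpa only [e.right_inv hv] using trans_an h (At.of_target he hv)⟩

theorem Co.holA {Θ : OpenPartialHomeomorph X E} (h : Co n Θ) {F : Y → E} {y : Y} (hF : AnV p F y)
    (hy : F y ∈ Θ.target) : HolA p n (fun y => Θ.symm (F y)) y :=
  .of_an ((Θ.continuousAt_symm hy).comp hF.cont) (at_chart y) (at_chart _)
    (hF.cmp (h.inv _ hy _ (at_chart _)) _ (at_chart y))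

/-- a holomorphic function in the coordinates `Θ` -/
theorem Co.an_hol {Θ : OpenPartialHomeomorph X E} (h : Co n Θ) {v : E} (hv : v ∈ Θ.target)
    {a : X → ℂ} (ha : Hol n a (Θ.symm v)) : AnalyticAt ℂ (fun v => a (Θ.symm v)) v := by
  have he := at_chart (n := n) (Θ.symm v)
  refine ((ha _ he).fun_comp (f := fun w => chartAt (Cm n) (Θ.symm v) (Θ.symm w))
    (h.inv v hv _ he)).congr ?_
  filter_upwards [(Θ.continuousAt_symm hv).eventually (at_near he)] with w hw
  rw [hw.left_inv]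

/-- coordinates whose first part is a given independent family -/
theorem exists_co {α : Type} [Fintype α] {h : α → X → ℂ} (hi : Ind n h x) {d : ℕ}
    (hd : Fintype.card α + d = n) {U : Set X} (hU : U ∈ 𝓝 x) :
    ∃ Θ : OpenPartialHomeomorph X ((α → ℂ) × Cm d), Co n Θ ∧ x ∈ Θ.source ∧ Θ.source ⊆ U ∧
      ∀ y ∈ Θ.source, (Θ y).1 = fun a => h a y := by
  have he := at_chart (n := n) x
  obtain ⟨Φ, P, h1, h2, h3, h4⟩ := hi.par hd he
  refine ⟨(chartAt (Cm n) x ≫ₕ Φ).restrOpen (interior U) isOpen_interior, ⟨fun y hy => ?_,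
    fun v hv e' he' => ?_⟩, ⟨⟨he.2, h1⟩, mem_interior_iff_mem_nhds.2 hU⟩,
    fun y hy => interior_subset hy.2, fun y hy => ?_⟩
  · have k : AnalyticAt ℂ Φ (chartAt (Cm n) x y) := by
      rw [show (Φ : Cm n → _) = _ from funext h2]
      exact (h3 _ hy.1.2).prod (P.analyticAt _)
    exact (anV_chart ⟨he.1, hy.1.1⟩).cmp k
  · have k : Φ.symm v ∈ (chartAt (Cm n) x).target := hv.1.2
    exact ((co_chart he.1).inv _ k e' he').fun_comp (h4 v hv.1.1)
  · change (Φ (chartAt (Cm n) x y)).1 = _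
    rw [h2, (chartAt (Cm n) x).left_inv hy.1.1]

/-- a submersion has local sections -/
theorem Sbm.sec (hs : Sbm n p f x) (hf : HolA n p f x) :
    ∃ g : Y → X, g (f x) = x ∧ HolA p n g (f x) ∧ ∀ᶠ z in 𝓝 (f x), f (g z) = z := by
  have he' := at_chart (n := p) (f x)
  set c := chartAt (Cm p) (f x)
  obtain ⟨Θ, h1, h2, h3, h4⟩ := exists_co ((sbm_iff_ind hf he').1 hs) (d := n - p)
    (by simpa using Nat.add_sub_cancel' hs.le) (hf.cont.eventually (at_near he'))
  have h5 : (c (f x), (Θ x).2) = Θ x := Prod.ext (h4 x h2).symm rfl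
  have h6 : AnV p (fun z => (c z, (Θ x).2)) (f x) := (anV_chart he').prod (anV_const _ _)
  have h7 : (c (f x), (Θ x).2) ∈ Θ.target := h5 ▸ Θ.map_source h2
  refine ⟨fun z => Θ.symm (c z, (Θ x).2), (congrArg Θ.symm h5).trans (Θ.left_inv h2), h1.holA h6 h7, ?_⟩
  filter_upwards [h6.cont.eventually (Θ.open_target.mem_nhds h7), at_near he'] with z k1 k2
  have k3 := Θ.map_target k1
  refine c.injOn (h3 k3).2 k2.2 ?_
  exact (h4 _ k3).symm.trans (congrArg Prod.fst (Θ.right_inv k1))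

/-- an immersion has local retractions -/
theorem Imm.ret (hi : Imm n p f x) (hf : HolA n p f x) :
    ∃ g : Y → X, g (f x) = x ∧ HolA p n g (f x) ∧ ∀ᶠ y in 𝓝 x, g (f y) = y := by
  have he := at_chart (n := n) x
  have he' := at_chart (n := p) (f x)
  set c := chartAt (Cm p) (f x)
  obtain ⟨L, hL⟩ := (df f (chartAt (Cm n) x) c x).toLinearMap.exists_leftInverse_of_injective
    (LinearMap.ker_eq_bot.2 (hi _ _ he he'))
  let L' : Cm p →L[ℂ] Cm n := LinearMap.toContinuousLinearMap L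
  have h0 : AnV n (fun y => L' (c (f y))) x := (hf.anV he').cmp (L'.analyticAt _)
  have h8 : Ind n (fun a y => L' (c (f y)) a) x := by
    refine Ind.of_chart h0.hol he ((P277Z.Slc.ind_iff_surj _).2 fun v => ⟨v, ?_⟩)
    have k := (L'.hasFDerivAt.comp _ (hf.an he he').differentiableAt.hasFDerivAt).fderiv
    have k' := fderiv_pi fun a => (h0.hol a _ he).differentiableAt
    exact (DFunLike.congr_fun (k'.symm.trans k) v).trans (LinearMap.congr_fun hL v)
  obtain ⟨Θ, h1, h2, -, h4⟩ := exists_co h8 (d := 0) (by simp) univ_mem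
  have h5 : ∀ y ∈ Θ.source, (L' (c (f y)), 0) = Θ y := fun y hy =>
    Prod.ext (h4 y hy).symm (Subsingleton.elim _ _)
  refine ⟨fun z => Θ.symm (L' (c z), 0), (congrArg Θ.symm (h5 x h2)).trans (Θ.left_inv h2), h1.holA
    (((anV_chart he').cmp (L'.analyticAt _)).prod (anV_const _ _)) (h5 x h2 ▸ Θ.map_source h2), ?_⟩
  filter_upwards [Θ.open_source.mem_nhds h2] with y hy
  rw [h5 y hy, Θ.left_inv hy]

theorem Imm.inj (hi : Imm n p f x) (hf : HolA n p f x) : ∃ U ∈ 𝓝 x, InjOn f U :=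
  let ⟨g, _, _, h⟩ := hi.ret hf
  ⟨_, h, fun y hy z hz k => by rw [← show g (f y) = y from hy, k]; exact hz⟩

theorem Sbm.map_nhds (hs : Sbm n p f x) (hf : HolA n p f x) : map f (𝓝 x) = 𝓝 (f x) := by
  obtain ⟨g, h1, h2, h3⟩ := hs.sec hf
  refine le_antisymm hf.cont fun U hU => ?_
  have h4 : Tendsto g (𝓝 (f x)) (𝓝 x) := by simpa only [ContinuousAt, h1] using h2.cont
  filter_upwards [h3, h4.eventually (mem_map.1 hU)] with z k1 k2 using k1 ▸ k2

theorem Sbm.ev (hs : Sbm n p f x) (hf : HolA n p f x) {P : X → Prop} (h : ∀ᶠ y in 𝓝 x, P y) :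
    ∀ᶠ z in 𝓝 (f x), ∃ y, P y ∧ f y = z :=
  hs.map_nhds hf ▸ image_mem_map h

theorem Sbm.freq (hs : Sbm n p f x) (hf : HolA n p f x) {P : Y → Prop} (h : ∃ᶠ z in 𝓝 (f x), P z) :
    ∃ᶠ y in 𝓝 x, P (f y) := by
  rwa [← hs.map_nhds hf, frequently_map] at h

/-- the local inverse -/
theorem Imm.inv {Y : Type} [TopologicalSpace Y] [ChartedSpace (Cm n) Y]
    [IsManifold 𝓘(ℂ, Cm n) ω Y] {f : X → Y} (hi : Imm n n f x) (hf : HolA n n f x) :
    ∃ g : Y → X, g (f x) = x ∧ HolA n n g (f x) ∧ Imm n n g (f x) ∧ (∀ᶠ y in 𝓝 x, g (f y) = y) ∧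
      ∀ᶠ z in 𝓝 (f x), f (g z) = z := by
  obtain ⟨g, h1, h2, h3⟩ := (imm_iff_sbm.1 hi).sec hf
  obtain ⟨U, k1, k2⟩ := hi.inj hf
  refine ⟨g, h1, h2, Imm.of_comp (g := f) (h1.symm ▸ hf) h2
    ((imm_id _).cng (h3.mono fun _ => Eq.symm)), ?_, h3⟩
  have h4 : Tendsto (fun y => g (f y)) (𝓝 x) (𝓝 x) := by
    simpa only [ContinuousAt, h1] using (h2.cmp hf).cont
  filter_upwards [hf.cont.eventually h3, k1, h4.eventually k1] with y l1 l2 l3 using k2 l3 l2 l1

/-- holomorphic functions extend along an immersion -/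
theorem Imm.ext (hi : Imm n p f x) (hf : HolA n p f x) {a : X → ℂ} (ha : Hol n a x) :
    ∃ A : Y → ℂ, Hol p A (f x) ∧ ∀ᶠ y in 𝓝 x, A (f y) = a y :=
  let ⟨g, h1, h2, h3⟩ := hi.ret hf
  ⟨fun z => a (g z), h2.hol (h1.symm ▸ ha), h3.mono fun _ hy => congrArg a hy⟩

/-- a continuous map into an immersed manifold is holomorphic if the composed map is -/
theorem Imm.lift {g : Z → X} {z : Z} (hi : Imm n p f (g z)) (hf : HolA n p f (g z))
    (hc : ContinuousAt g z) (h : HolA q p (fun z => f (g z)) z) : HolA q n g z :=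
  let ⟨_, _, h2, h3⟩ := hi.ret hf
  (HolA.cmp (f := fun z => f (g z)) h2 h).cng (hc.eventually h3)

/-- a function is holomorphic if its pull back by a submersion is -/
theorem Sbm.desc (hs : Sbm n p f x) (hf : HolA n p f x) {g : Y → Z}
    (h : HolA n q (fun y => g (f y)) x) : HolA p q g (f x) :=
  let ⟨_, h1, h2, h3⟩ := hs.sec hf
  (HolA.cmp (g := fun y => g (f y)) (h1.symm ▸ h) h2).cng (h3.mono fun _ => congrArg g)

theorem Sbm.hol_desc (hs : Sbm n p f x) (hf : HolA n p f x) {a : Y → ℂ}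
    (h : Hol n (fun y => a (f y)) x) : Hol p a (f x) :=
  let ⟨_, h1, h2, h3⟩ := hs.sec hf
  (h2.hol (a := fun y => a (f y)) (h1.symm ▸ h)).congr (h3.mono fun _ => congrArg a)

/-- local equations of the image of an immersion -/
theorem Imm.img (hi : Imm n p f x) (hf : HolA n p f x) :
    ∃ (c : ℕ) (h : Fin c → Y → ℂ), n + c = p ∧ Ind p h (f x) ∧ (∀ᶠ y in 𝓝 x, ∀ a, h a (f y) = 0) ∧
      ∀ U ∈ 𝓝 x, ∀ᶠ z in 𝓝 (f x), (∀ a, h a z = 0) → z ∈ f '' U := by
  have he := at_chart (n := n) x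
  have he' := at_chart (n := p) (f x)
  set b := chartAt (Cm n) x
  set c := chartAt (Cm p) (f x)
  obtain ⟨r, r1, r2, r3⟩ := hi.ret hf
  set A := (df f b c x).toLinearMap
  have hd : Module.finrank ℂ (Cm p ⧸ A.range) = p - n := by
    have k := A.range.finrank_quotient_add_finrank
    rw [LinearMap.finrank_range_of_inj (hi _ _ he he')] at k
    simp only [Module.finrank_fin_fun] at k
    omega
  let ε : (Cm p ⧸ A.range) ≃ₗ[ℂ] Cm (p - n) := LinearEquiv.ofFinrankEq _ _ (by simp [hd])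
  let K : Cm p →L[ℂ] Cm (p - n) := LinearMap.toContinuousLinearMap (ε.toLinearMap ∘ₗ A.range.mkQ)
  have K1 : ∀ v, K (df f b c x v) = 0 := fun v =>
    ε.map_eq_zero_iff.2 ((Submodule.Quotient.mk_eq_zero _).2 ⟨v, rfl⟩)
  have K2 : Surjective K := ε.surjective.comp A.range.mkQ_surjective
  have hfr : HolA p p (fun z => f (r z)) (f x) := HolA.cmp (r1.symm ▸ hf) r2
  have hc : At c (f (r (f x))) := r1.symm ▸ he'
  have hb : At b (r (f x)) := r1.symm ▸ he
  have h0 : AnV p (fun z => K (c z - c (f (r z)))) (f x) := fun e₁ k =>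
    (K.analyticAt _).fun_comp ((anV_chart he' e₁ k).fun_sub (hfr.anV hc e₁ k))
  have h1 : HasFDerivAt (fun w => K (c (c.symm w) - c (f (r (c.symm w))))) K (c (f x)) := by
    have k1 : HasFDerivAt (fun w => c (c.symm w)) (ContinuousLinearMap.id ℂ _) (c (f x)) :=
      df_id_self he' ▸ (anV_chart he' c he').differentiableAt.hasFDerivAt
    have k2 := (hfr.an he' hc).differentiableAt.hasFDerivAt
    refine (K.hasFDerivAt.comp _ (k1.sub k2)).congr_fderiv (ContinuousLinearMap.ext fun v => ?_)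
    have k3 : df (fun z => f (r z)) c c (f x) = (df f b c x).comp (df r c b (f x)) := by
      rw [df_comp (r1.symm ▸ hf) r2 he' hb hc, r1]
    change K (v - df (fun z => f (r z)) c c (f x) v) = K v
    rw [map_sub, k3, ContinuousLinearMap.comp_apply, K1, sub_zero]
  have h2 : ContinuousLinearMap.pi (fun a => dd (fun z => K (c z - c (f (r z))) a) c (f x)) = K :=
    (fderiv_pi fun a => (h0.hol a _ he').differentiableAt).symm.trans h1.fderiv
  have h3 : ∀ᶠ y in 𝓝 x, K (c (f y) - c (f (r (f y)))) = 0 :=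
    r3.mono fun y hy => by rw [hy, sub_self, map_zero]
  have h4 : Ind p (Sum.elim (fun a z => K (c z - c (f (r z))) a) fun a z => b (r z) a) (f x) := by
    refine Ind.of_chart (Sum.rec h0.hol (r2.anV hb).hol) he' ((P277Z.Slc.ind_iff_surj _).2 fun w => ?_)
    obtain ⟨v, hv⟩ := K2 fun a => w (.inl a)
    have k : (df r c b (f x)).comp (df f b c x) = ContinuousLinearMap.id ℂ _ := by
      rw [← df_comp r2 hf he he' hb, df_congr r3 he, df_id_self he]
    refine ⟨v + df f b c x ((fun a => w (.inr a)) - df r c b (f x) v), funext ?_⟩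
    rintro (a | a)
    · refine (congrFun (DFunLike.congr_fun h2 _) a).trans ?_
      rw [map_add, K1, add_zero, hv]
    · refine (df_apply r2 he' hb _ a).symm.trans ?_
      rw [map_add, ← ContinuousLinearMap.comp_apply, k]
      simp
  obtain ⟨Θ, -, t2, -, t4⟩ := exists_co h4 (d := 0) (by simpa using Nat.sub_add_cancel hi.le) univ_mem
  refine ⟨p - n, fun a z => K (c z - c (f (r z))) a, Nat.add_sub_cancel' hi.le,
    h4.comp Sum.inl Sum.inl_injective, h3.mono fun y hy a => congrFun hy a, fun U hU => ?_⟩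
  have h5 : Tendsto r (𝓝 (f x)) (𝓝 x) := by simpa only [ContinuousAt, r1] using r2.cont
  filter_upwards [h5.eventually hU, h5.eventually r3, h5.eventually h3, Θ.open_source.mem_nhds t2,
    (hf.cont.tendsto.comp h5).eventually (Θ.open_source.mem_nhds t2)] with z k1 k2 k3 k4 k5 k6
  refine ⟨r z, k1, Θ.injOn k5 k4 (Prod.ext ?_ (Subsingleton.elim _ _))⟩
  rw [t4 _ k4]
  refine (t4 _ k5).trans (funext ?_)
  rintro (a | a)
  · exact (congrFun k3 a).trans (k6 a).symm
  · exact congrArg (fun y => b y a) k2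

section emb

variable [CompactSpace X] [T2Space Y] {i : X → Y} {S : Set Y}

theorem Emb.mem (h : Emb n p i S) (x : X) : i x ∈ S := h.rng ▸ mem_range_self x

theorem Emb.ex (h : Emb n p i S) {y : Y} (hy : y ∈ S) : ∃ x, i x = y := by rwa [← h.rng] at hy

theorem Emb.cemb (h : Emb n p i S) : Topology.IsClosedEmbedding i :=
  h.hol.cont.isClosedEmbedding h.inj

theorem Emb.closed (h : Emb n p i S) : IsClosed S := h.rng ▸ h.cemb.isClosed_range

/-- a property near `x` is a property near `i x` on `S` -/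
theorem Emb.ev (h : Emb n p i S) {P : X → Prop} :
    (∀ᶠ y in 𝓝 x, P y) ↔ ∀ᶠ z in 𝓝 (i x), ∀ y, i y = z → P y := by
  rw [h.cemb.isInducing.nhds_eq_comap, eventually_comap]

theorem Emb.lift_at (h : Emb n p i S) {g : Z → X} {z : Z} (hg : HolA q p (fun z => i (g z)) z) :
    HolA q n g z :=
  (h.imm _).lift (h.hol.at _) (h.cemb.isInducing.continuousAt_iff.2 hg.cont) hg

theorem Emb.lift (h : Emb n p i S) {g : Z → Y} (hg : HolM q p g) (hS : ∀ z, g z ∈ S) :
    ∃ g' : Z → X, HolM q n g' ∧ ∀ z, i (g' z) = g z := by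
  choose g' hg' using fun z => h.ex (hS z)
  exact ⟨g', fun z => h.lift_at ((hg.at z).cng (.of_forall fun z => (hg' z).symm)), hg'⟩

theorem Emb.subM (h : Emb n p i S) : SubM p n S := fun y hy => by
  obtain ⟨x, rfl⟩ := h.ex hy
  obtain ⟨c, g, h1, h2, h3, h4⟩ := (h.imm x).img (h.hol.at x)
  refine ⟨c, g, h1, h2, ?_⟩
  filter_upwards [h.ev.1 h3, h4 univ univ_mem] with z k1 k2
  refine ⟨fun hz => ?_, fun hz => ?_⟩
  · obtain ⟨x', rfl⟩ := h.ex hz
    exact k1 x' rfl
  · obtain ⟨x', -, rfl⟩ := k2 hz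
    exact h.mem x'

theorem Emb.comp {j : Z → X} {T : Set X} (h : Emb n p i S) (h' : Emb q n j T) :
    Emb q p (fun z => i (j z)) (i '' T) :=
  ⟨h.hol.comp h'.hol, h.inj.comp h'.inj, fun z =>
    .comp (h.hol.at _) (h'.hol.at _) (h.imm _) (h'.imm z), by
      rw [← h'.rng, ← range_comp]; rfl⟩

/-- an embedding into `S` factors through an embedding onto `S` -/
theorem Emb.fac {j : Z → Y} {T : Set Y} (h : Emb n p i S) (h' : Emb q p j T) (hT : T ⊆ S) :
    ∃ g : Z → X, Emb q n g (i ⁻¹' T) ∧ ∀ z, i (g z) = j z := by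
  obtain ⟨g, h1, h2⟩ := h.lift h'.hol fun z => hT (h'.rng ▸ mem_range_self z)
  refine ⟨g, ⟨h1, fun z z' k => h'.inj (by rw [← h2, ← h2, k]), fun z =>
    .of_comp (h.hol.at _) (h1.at z) ((h'.imm z).cng (.of_forall fun z => (h2 z).symm)), ?_⟩, h2⟩
  ext x
  rw [← h'.rng]
  exact exists_congr fun z => by rw [← h2, h.inj.eq_iff]

end emb

end Vale.Agent.P281Z
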