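import Vale.Agent.P281Z.Mf.Loc
import Vale.Agent.P284.H10.S4d

/-!
# P281Z, toolbox: analytic, thin and negligible sets
-/

open scoped Manifold ContDiff Topology
open Set Filter Function
open Vale.Agent.P272.K Vale.Agent.P285.H281.FD
open Vale.Agent.P277Z (Hol Nz gen at_chart trans_an hol_const)
open Vale.Agent.P277Z.Slc (Ind LEq Snc dd tr)

set_option linter.unusedSectionVars false

noncomputable section

namespace Vale.Agent.P281Z

variable {n p : ℕ} {X Y : Type} [TopologicalSpace X] [ChartedSpace (Cm n) X]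
  [TopologicalSpace Y] [ChartedSpace (Cm p) Y] {f : X → Y} {x : X} {A B S T : Set X}

/-- equations indexed by any finite type -/
theorem An.of_fin (h : ∀ x, ∃ (ι : Type) (_ : Finite ι) (g : ι → X → ℂ), (∀ i, Hol n (g i) x) ∧
    ∀ᶠ y in 𝓝 x, y ∈ B ↔ ∀ i, g i y = 0) : An n B := fun x => by
  obtain ⟨ι, _, g, h1, h2⟩ := h x
  obtain ⟨k, ⟨ε⟩⟩ := Finite.exists_equiv_fin ι
  exact ⟨k, fun i => g (ε.symm i), fun i => h1 _, h2.mono fun y hy =>
    hy.trans ε.symm.surjective.forall⟩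

theorem An.closed (h : An n B) : IsClosed B :=
  isOpen_compl_iff.1 (isOpen_iff_mem_nhds.2 fun x hx => by
    obtain ⟨k, g, h1, h2⟩ := h x
    obtain ⟨i, hi⟩ := not_forall.1 (mt h2.self_of_nhds.2 hx)
    filter_upwards [h2, (h1 i).ne_near hi] with y k1 k2 k3 using k2 (k1.1 k3 i))

/-- only the points of the closed set matter -/
theorem An.of_closed (hc : IsClosed B) (h : ∀ x ∈ B, ∃ (ι : Type) (_ : Finite ι) (g : ι → X → ℂ),
    (∀ i, Hol n (g i) x) ∧ ∀ᶠ y in 𝓝 x, y ∈ B ↔ ∀ i, g i y = 0) : An n B :=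
  .of_fin fun x => by
    by_cases hx : x ∈ B
    · exact h x hx
    · refine ⟨Unit, inferInstance, fun _ _ => 1, fun _ => hol_const _ _, ?_⟩
      filter_upwards [hc.isOpen_compl.mem_nhds hx] with y hy
      exact iff_of_false hy fun k => one_ne_zero (k ())

theorem an_empty : An n (∅ : Set X) := .of_closed isClosed_empty fun _ h => h.elim

theorem an_univ : An n (univ : Set X) := fun _ => ⟨0, Fin.elim0, fun i => i.elim0, by simp⟩

theorem an_clopen (h : IsClopen B) : An n B :=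
  .of_closed h.1 fun x hx => ⟨Empty, inferInstance, Empty.elim, fun i => i.elim, by
    filter_upwards [h.2.mem_nhds hx] with y hy using by simpa using hy⟩

theorem an_zero {g : X → ℂ} (h : ∀ x, Hol n g x) : An n {x | g x = 0} := fun x =>
  ⟨1, fun _ => g, fun _ => h x, by simp⟩

theorem An.inter (hA : An n A) (hB : An n B) : An n (A ∩ B) := .of_fin fun x =>
  let ⟨_, g, h1, h2⟩ := hA x
  let ⟨_, g', k1, k2⟩ := hB x
  ⟨_, inferInstance, Sum.elim g g', Sum.rec h1 k1, by
    filter_upwards [h2, k2] with y a b using (and_congr a b).trans (by simp)⟩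

theorem An.union (hA : An n A) (hB : An n B) : An n (A ∪ B) := .of_fin fun x =>
  let ⟨k, g, h1, h2⟩ := hA x
  let ⟨k', g', k1, k2⟩ := hB x
  ⟨Fin k × Fin k', inferInstance, fun i y => g i.1 y * g' i.2 y, fun i => (h1 _).mul (k1 _), by
    filter_upwards [h2, k2] with y a b
    rw [mem_union, a, b]
    simp only [mul_eq_zero, Prod.forall, forall_or_left, forall_or_right]⟩

theorem An.iUnion {ι : Type} [Finite ι] {B : ι → Set X} (h : ∀ i, An n (B i)) : An n (⋃ i, B i) :=
  Finite.induction_on_subset (motive := fun s _ => An n (⋃₀ s)) (range B) (toFinite _)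
    (by simpa using an_empty) fun hi _ _ k => by
      obtain ⟨i, rfl⟩ := hi
      rw [sUnion_insert]
      exact An.union (h i) k

theorem An.iInter {ι : Type} [Finite ι] {B : ι → Set X} (h : ∀ i, An n (B i)) : An n (⋂ i, B i) :=
  Finite.induction_on_subset (motive := fun s _ => An n (⋂₀ s)) (range B) (toFinite _)
    (by simpa using an_univ) fun hi _ _ k => by
      obtain ⟨i, rfl⟩ := hi
      rw [sInter_insert]
      exact An.inter (h i) k

theorem an_of_leq {G : Set X} (h : ∀ x, ∃ ζ, LEq n G x ζ) : An n G := fun x =>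
  let ⟨ζ, hζ⟩ := h x
  ⟨1, fun _ => ζ, fun _ => hζ.hol, hζ.1.mono fun _ k => by simpa using k.symm⟩

theorem SubM.an {d : ℕ} (h : SubM n d S) (hc : IsClosed S) : An n S :=
  .of_closed hc fun x hx =>
    let ⟨_, g, _, h1, h2⟩ := h x hx
    ⟨_, inferInstance, g, h1.1, h2⟩

theorem Thin.an (h : Thin n B) : An n B := h.1

theorem Thin.closed (h : Thin n B) : IsClosed B := h.1.closed

theorem Thin.dense (h : Thin n B) : Dense Bᶜ := h.2

theorem Thin.freq (h : Thin n B) (x : X) : ∃ᶠ y in 𝓝 x, y ∉ B :=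
  mem_closure_iff_frequently.1 (h.2 x)

theorem Thin.gen (h : Thin n B) (x : X) : ∀ᶠ y in gen {x}, y ∉ B :=
  P277Z.gen_of_open (.of_forall fun y => (h.freq y).mono fun _ k => h.closed.isOpen_compl.mem_nhds k)

theorem thin_empty : Thin n (∅ : Set X) := ⟨an_empty, by simp⟩

theorem Thin.sub (h : Thin n B) (hA : An n A) (k : A ⊆ B) : Thin n A :=
  ⟨hA, h.2.mono (compl_subset_compl.2 k)⟩

theorem Thin.union (hA : Thin n A) (hB : Thin n B) : Thin n (A ∪ B) :=
  ⟨hA.1.union hB.1, compl_union A B ▸ hA.2.inter_of_isOpen_left hB.2 hA.closed.isOpen_compl⟩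

theorem Thin.iUnion {ι : Type} [Finite ι] {B : ι → Set X} (h : ∀ i, Thin n (B i)) :
    Thin n (⋃ i, B i) :=
  Finite.induction_on_subset (motive := fun s _ => Thin n (⋃₀ s)) (range B) (toFinite _)
    (by simpa using thin_empty) fun hi _ _ k => by
      obtain ⟨i, rfl⟩ := hi
      rw [sUnion_insert]
      exact Thin.union (h i) k

theorem Thin.ne_univ [Nonempty X] (h : Thin n B) : B ≠ univ := fun k => by
  obtain ⟨x, hx⟩ := h.2.nonempty
  exact hx (k ▸ mem_univ x)

/-- near every point a thin set lies in the zero set of a non zero function -/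
theorem Thin.nz (h : Thin n B) (x : X) :
    ∃ g, Hol n g x ∧ Nz g x ∧ ∀ᶠ y in 𝓝 x, y ∈ B → g y = 0 := by
  obtain ⟨k, g, h1, h2⟩ := h.1 x
  by_contra hc
  have h3 : ∀ i, ∀ᶠ y in 𝓝 x, g i y = 0 := fun i => by
    by_contra k
    exact hc ⟨g i, h1 i, k, h2.mono fun y a b => a.1 b i⟩
  exact h.freq x (by
    filter_upwards [h2, eventually_all.2 h3] with y a b c using c (a.2 b))

theorem Thin.neg (h : Thin n B) : Neg n B := ⟨fun _ => B, fun _ => h, subset_iUnion (fun _ => B) 0⟩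

theorem Neg.mono (h : Neg n T) (k : S ⊆ T) : Neg n S :=
  let ⟨H, h1, h2⟩ := h
  ⟨H, h1, k.trans h2⟩

theorem neg_empty : Neg n (∅ : Set X) := thin_empty.neg

theorem Neg.iUnion {ι : Type} [Countable ι] {S : ι → Set X} (h : ∀ i, Neg n (S i)) :
    Neg n (⋃ i, S i) := by
  cases isEmpty_or_nonempty ι
  · simpa using neg_empty
  choose H h1 h2 using h
  obtain ⟨σ, hσ⟩ := exists_surjective_nat (ι × ℕ)
  refine ⟨fun k => H (σ k).1 (σ k).2, fun k => h1 _ _, iUnion_subset fun i x hx => ?_⟩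
  obtain ⟨j, hj⟩ := mem_iUnion.1 (h2 i hx)
  obtain ⟨k, hk⟩ := hσ (i, j)
  exact mem_iUnion.2 ⟨k, by rw [hk]; exact hj⟩

theorem Neg.union (h : Neg n S) (h' : Neg n T) : Neg n (S ∪ T) := by
  rw [union_eq_iUnion]
  exact .iUnion fun b => by cases b <;> assumption

/-- Baire -/
theorem Neg.dense [T2Space X] (h : Neg n S) : Dense Sᶜ := by
  obtain ⟨H, h1, h2⟩ := h
  have := ChartedSpace.locallyCompactSpace (Cm n) X
  refine (dense_iInter_of_isOpen (fun k => (h1 k).closed.isOpen_compl) fun k => (h1 k).2).mono ?_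
  rw [← compl_iUnion]
  exact compl_subset_compl.2 h2

theorem Neg.ex [T2Space X] (h : Neg n S) {U : Set X} (hU : U ∈ 𝓝 x) : ∃ y ∈ U, y ∉ S :=
  mem_closure_iff_nhds.1 (h.dense x) U hU

theorem not_neg_univ [T2Space X] [Nonempty X] : ¬ Neg n (univ : Set X) := fun h => by
  simpa using h.dense.nonempty

theorem not_neg_compl [T2Space X] [Nonempty X] (h : Neg n S) : ¬ Neg n Sᶜ := fun k =>
  not_neg_univ (union_compl_self S ▸ h.union k)

/-- a non negligible set has a point off a negligible set -/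
theorem Neg.ex_of_not (h : Neg n S) (k : ¬ Neg n T) : ∃ y ∈ T, y ∉ S := by
  by_contra hc
  exact k (h.mono fun y hy => not_not.1 fun k => hc ⟨y, hy, k⟩)

theorem Neg.not_diff (h : Neg n S) (k : ¬ Neg n T) : ¬ Neg n (T \ S) := fun c =>
  k ((c.union h).mono (subset_sdiff_union T S))

section oft

variable {d : ℕ} {P Q : ∀ F : Mf d, (F.X → X) → Prop}

theorem Oft.mono (h : Oft n p f d P) (k : ∀ F i, P F i → Q F i) : Oft n p f d Q := fun c =>
  h (c.mono fun _ ⟨F, i, a, b⟩ => ⟨F, i, a, k F i b⟩)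

/-- the implication is needed only off a negligible set -/
theorem Oft.mono' (h : Oft n p f d P) {S : Set Y} (hS : Neg p S)
    (k : ∀ y ∉ S, ∀ F i, Emb d n i (f ⁻¹' {y}) → P F i → Q F i) : Oft n p f d Q := fun c =>
  hS.not_diff h (c.mono fun y ⟨⟨F, i, a, b⟩, hy⟩ => ⟨F, i, a, k y hy F i a b⟩)

theorem Oft.ex (h : Oft n p f d P) {S : Set Y} (hS : Neg p S) :
    ∃ y ∉ S, ∃ (F : Mf d) (i : F.X → X), Emb d n i (f ⁻¹' {y}) ∧ P F i :=
  let ⟨y, a, b⟩ := hS.ex_of_not h
  ⟨y, b, a⟩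

theorem Oft.exists {ι : Type} [Countable ι] {P : ι → ∀ F : Mf d, (F.X → X) → Prop}
    (h : Oft n p f d fun F i => ∃ k, P k F i) : ∃ k, Oft n p f d (P k) := by
  by_contra hc
  refine h ((Neg.iUnion fun k => not_not.1 (not_exists.1 hc k)).mono ?_)
  rintro y ⟨F, i, a, k, b⟩
  exact mem_iUnion.2 ⟨k, F, i, a, b⟩

theorem Oft.or (h : Oft n p f d fun F i => P F i ∨ Q F i) : Oft n p f d P ∨ Oft n p f d Q := by
  by_contra hc
  rw [not_or] at hc
  refine h (((not_not.1 hc.1).union (not_not.1 hc.2)).mono ?_)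
  rintro y ⟨F, i, a, b | b⟩
  exacts [.inl ⟨F, i, a, b⟩, .inr ⟨F, i, a, b⟩]

theorem oft_of_compl [T2Space Y] [Nonempty Y] {S : Set Y} (hS : Neg p S)
    (h : ∀ y ∉ S, ∃ (F : Mf d) (i : F.X → X), Emb d n i (f ⁻¹' {y}) ∧ P F i) : Oft n p f d P :=
  fun c => not_neg_compl hS (c.mono h)

end oft

variable [IsManifold 𝓘(ℂ, Cm n) ω X] [IsManifold 𝓘(ℂ, Cm p) ω Y]

theorem an_point [T1Space X] (x : X) : An n ({x} : Set X) :=
  .of_closed isClosed_singleton fun y hy => by
    obtain rfl : y = x := hy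
    have he := at_chart (n := n) y
    refine ⟨Fin n, inferInstance, fun a z => chartAt (Cm n) y z a - chartAt (Cm n) y y a,
      fun a => (hol_chart he a).sub (hol_const _ _), (at_near he).mono fun z hz => ?_⟩
    simp only [sub_eq_zero, mem_singleton_iff, ← funext_iff]
    exact ⟨fun k => k ▸ rfl, (chartAt (Cm n) y).injOn hz.2 he.2⟩

theorem An.pre {B : Set Y} (h : An p B) (hf : HolM n p f) : An n (f ⁻¹' B) := fun x =>
  let ⟨k, g, h1, h2⟩ := h (f x)
  ⟨k, fun i y => g i (f y), fun i => hf.hol (h1 i), hf.cont.continuousAt.eventually h2⟩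

/-- the set where two holomorphic maps agree -/
theorem an_eq [T2Space Y] {g : X → Y} (hf : HolM n p f) (hg : HolM n p g) : An n {x | f x = g x} :=
  .of_closed (isClosed_eq hf.cont hg.cont) fun x hx => by
    have he := at_chart (n := p) (f x)
    have he' : At (chartAt (Cm p) (f x)) (g x) := (show f x = g x from hx) ▸ he
    refine ⟨Fin p, inferInstance, fun a z => chartAt (Cm p) (f x) (f z) a -
      chartAt (Cm p) (f x) (g z) a, fun a => (hf.hol (hol_chart he a)).sub
        (hg.hol (hol_chart he' a)), ?_⟩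
    filter_upwards [hf.cont.continuousAt.eventually (at_near he),
      hg.cont.continuousAt.eventually (at_near he')] with z k1 k2
    simp only [sub_eq_zero, ← funext_iff]
    exact ⟨fun k => k ▸ rfl, (chartAt (Cm p) (f x)).injOn k1.2 k2.2⟩

theorem Emb.an [CompactSpace X] [T2Space Y] {i : X → Y} {S : Set Y} (h : Emb n p i S) : An p S :=
  h.subM.an h.closed

/-- the identity theorem -/
theorem An.clopen (h : An n B) : IsClopen (interior B) := by
  refine ⟨isClosed_of_closure_subset fun x hx => ?_, isOpen_interior⟩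
  obtain ⟨k, g, h1, h2⟩ := h x
  have h3 : ∀ i, ∀ᶠ y in 𝓝 x, g i y = 0 := fun i => by
    by_contra c
    obtain ⟨y, a1, a2, a3⟩ := ((mem_closure_iff_frequently.1 hx).and_eventually
      ((Nz.near c (h1 i)).and h2.eventually_nhds)).exists
    refine a2 ?_
    filter_upwards [a3, mem_interior_iff_mem_nhds.1 a1] with z b1 b2 using b1.1 b2 i
  refine mem_interior_iff_mem_nhds.2 ?_
  filter_upwards [h2, eventually_all.2 h3] with y a b using a.2 b

theorem An.thin [PreconnectedSpace X] (h : An n B) (k : B ≠ univ) : Thin n B :=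
  ⟨h, interior_eq_empty_iff_dense_compl.1 ((isClopen_iff.1 h.clopen).resolve_right fun c =>
    k (eq_univ_of_univ_subset (c ▸ interior_subset)))⟩

theorem An.eq_univ [PreconnectedSpace X] (h : An n B) (k : B ∈ 𝓝 x) : B = univ := by
  by_contra c
  exact (h.thin c).freq x (mem_of_superset k fun _ a b => b a)

theorem HolM.eq_of_ev [PreconnectedSpace X] [T2Space Y] {g : X → Y} (hf : HolM n p f)
    (hg : HolM n p g) (h : ∀ᶠ y in 𝓝 x, f y = g y) : f = g :=
  funext (eq_univ_iff_forall.1 ((an_eq hf hg).eq_univ h))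

theorem thin_of_nz (h : An n B) (k : ∀ x, ∃ g, Hol n g x ∧ Nz g x ∧ ∀ᶠ y in 𝓝 x, y ∈ B → g y = 0) :
    Thin n B :=
  ⟨h, fun x => mem_closure_iff_frequently.2 (by
    obtain ⟨g, -, h2, h3⟩ := k x
    exact ((not_eventually.1 h2).and_eventually h3).mono fun y a b => a.1 (a.2 b))⟩

theorem leq_nz {G : Set X} {ζ : X → ℂ} (h : LEq n G x ζ) : Nz ζ x := fun k =>
  (h.2 _ (at_chart x)).2 k.self_of_nhds ((P277Z.Slc.dd_congr k (at_chart x)).trans (by simp [dd]))

theorem thin_of_leq {G : Set X} (h : ∀ x, ∃ ζ, LEq n G x ζ) : Thin n G :=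
  thin_of_nz (an_of_leq h) fun x =>
    let ⟨ζ, hζ⟩ := h x
    ⟨ζ, hζ.hol, leq_nz hζ, hζ.1.mono fun _ k => k.2⟩

theorem snc_thin {κ : Type} {G : κ → Set X} (h : Snc n G) (l : κ) : Thin n (G l) :=
  thin_of_leq fun x => (h x).elim fun ζ k => ⟨ζ l, k.1 l⟩

theorem compl_off {κ : Type} (G : κ → Set X) : (off G)ᶜ = ⋃ l, G l := by
  ext x
  simp [off]

theorem snc_thin_off {κ : Type} [Finite κ] {G : κ → Set X} (h : Snc n G) : Thin n (off G)ᶜ :=
  compl_off G ▸ .iUnion (snc_thin h)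

theorem snc_dense_off {κ : Type} [Finite κ] {G : κ → Set X} (h : Snc n G) : Dense (off G) :=
  compl_compl (off G) ▸ (snc_thin_off h).2

theorem snc_open_off {κ : Type} [Finite κ] {G : κ → Set X} (h : Snc n G) : IsOpen (off G) :=
  isClosed_compl_iff.1 (snc_thin_off h).closed

/-- preimages of thin sets under a map which is a submersion at a dense set of points -/
theorem Thin.pre {B : Set Y} (h : Thin p B) (hf : HolM n p f) (hd : Dense {x | Sbm n p f x}) :
    Thin n (f ⁻¹' B) :=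
  ⟨h.1.pre hf, dense_closure.1 (hd.mono fun x hx =>
    mem_closure_iff_frequently.2 (Sbm.freq hx (hf.at x) (h.freq (f x))))⟩

theorem Thin.pre_of_ex [PreconnectedSpace X] {B : Set Y} (h : An p B) (hf : HolM n p f)
    (k : ∃ x, f x ∉ B) : Thin n (f ⁻¹' B) :=
  (h.pre hf).thin fun c => k.elim fun x hx => hx (c.ge (mem_univ x))

theorem Thin.pre_surj [ConnectedSpace X] {B : Set Y} (h : Thin p B) (hf : HolM n p f)
    (hs : Surjective f) : Thin n (f ⁻¹' B) := by
  have : Nonempty Y := Nonempty.map f inferInstance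
  obtain ⟨y, hy⟩ := h.2.nonempty
  obtain ⟨x, rfl⟩ := hs y
  exact Thin.pre_of_ex h.1 hf ⟨x, hy⟩

theorem Neg.pre {S : Set Y} (h : Neg p S) (k : ∀ B, Thin p B → Thin n (f ⁻¹' B)) :
    Neg n (f ⁻¹' S) :=
  let ⟨H, h1, h2⟩ := h
  ⟨fun j => f ⁻¹' H j, fun j => k _ (h1 j), preimage_iUnion ▸ preimage_mono h2⟩

/-- locally, a thin set does not disconnect -/
theorem Thin.loc_conn (h : Thin n B) (x : X) {U : Set X} (hU : U ∈ 𝓝 x) :
    ∃ O, IsOpen O ∧ x ∈ O ∧ O ⊆ U ∧ IsPreconnected (O \ B) := by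
  obtain ⟨g, h1, h2, h3⟩ := h.nz x
  have he := at_chart (n := n) x
  set e := chartAt (Cm n) x
  obtain ⟨r, hr, hb⟩ := Metric.eventually_nhds_iff_ball.1 ((at_ev he
    ((h1.near.and (h2.near h1)).and (h3.and hU))).and he.nhds_target)
  have h4 : IsPreconnected (Metric.ball (e x) r \ {z | g (e.symm z) = 0}) := by
    rcases n with _ | k
    · exact Set.Subsingleton.isPreconnected fun a _ b _ => Subsingleton.elim a b
    refine P284.H10.preconn_diff (k := k) ((P284.H10.cov_zero (g := fun z => g (e.symm z))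
      (by simp) Metric.isOpen_ball (fun z hz => ?_) fun z hz c => ?_).mono
        fun z hz => ⟨hz.2, hz.1⟩) (by simp) Metric.isOpen_ball (convex_ball _ _)
    · have k1 := (hb z hz).1.1.1 e (At.of_target he.1 (hb z hz).2)
      rw [e.right_inv (hb z hz).2] at k1
      exact k1.differentiableAt.differentiableWithinAt
    · refine (hb z hz).1.1.2 ((P277Z.At.ev (At.of_target he.1 (hb z hz).2)).1 ?_)
      rwa [e.right_inv (hb z hz).2]
  refine ⟨e.source ∩ e ⁻¹' Metric.ball (e x) r, e.isOpen_inter_preimage Metric.isOpen_ball,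
    ⟨he.2, Metric.mem_ball_self hr⟩, fun y hy => e.left_inv hy.1 ▸ (hb _ hy.2).1.2.2,
    (h4.image e.symm (e.continuousOn_symm.mono fun z hz => (hb z hz.1).2)).subset_closure ?_ ?_⟩
  · rintro _ ⟨z, hz, rfl⟩
    refine ⟨⟨e.map_target (hb z hz.1).2, ?_⟩, fun c => hz.2 ((hb z hz.1).1.2.1 c)⟩
    rw [mem_preimage, e.right_inv (hb z hz.1).2]
    exact hz.1
  · rintro y ⟨hy, -⟩
    have k1 : Nz g y := e.left_inv hy.1 ▸ (hb _ hy.2).1.1.2
    refine mem_closure_iff_frequently.2 (((not_eventually.1 k1).and_eventually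
      ((e.isOpen_inter_preimage Metric.isOpen_ball).mem_nhds hy)).mono fun z hz => ?_)
    exact ⟨e z, ⟨hz.2.2, fun c => hz.1 (e.left_inv hz.2.1 ▸ c)⟩, e.left_inv hz.2.1⟩

theorem Thin.preconn [PreconnectedSpace X] (h : Thin n B) : IsPreconnected Bᶜ :=
  P284.H10.preconn_compl h.2 fun x =>
    let ⟨O, h1, h2, _, h3⟩ := h.loc_conn x univ_mem
    ⟨O, h1, h2, h3⟩

theorem Thin.conn [ConnectedSpace X] (h : Thin n B) : IsConnected Bᶜ := ⟨h.2.nonempty, h.preconn⟩

end Vale.Agent.P281Z
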