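import Vale.Agent.P281Z.Mf.An
import Vale.Agent.P277Z.Slc.Crv
import Vale.Agent.P299.H956.D1.Pull2

/-!
# P281Z, toolbox: new manifolds from immersions; SUBM, KIM, DIM, MONO, fibres, components
-/

open scoped Manifold ContDiff Topology
open Set Filter Function
open Vale.Agent.P272.K Vale.Agent.P285.H281.FD
open Vale.Agent.P277Z (Hol Nz gen at_chart trans_an hol_const)
open Vale.Agent.P277Z.Slc (Ind LEq Snc dd tr)

set_option linter.unusedSectionVars false

noncomputable section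

namespace Vale.Agent.P281Z

theorem an_of_comp {n d : ℕ} {g' g : Cm d → Cm n} {τ : Cm d → Cm d} {z : Cm d}
    (hg' : AnalyticAt ℂ g' (τ z)) (hinj : Injective (fderiv ℂ g' (τ z))) (hg : AnalyticAt ℂ g z)
    (hτ : ContinuousAt τ z) (h : ∀ᶠ y in 𝓝 z, g y = g' (τ y)) : ContDiffAt ℂ ω τ z := by
  obtain ⟨L, hL⟩ := (fderiv ℂ g' (τ z) : Cm d →ₗ[ℂ] Cm n).exists_leftInverse_of_injective
    (LinearMap.ker_eq_bot.2 hinj)
  let L' : Cm n →L[ℂ] Cm d := LinearMap.toContinuousLinearMap L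
  have h1 : ContDiffAt ℂ ω (fun y => L' (g' y)) (τ z) :=
    L'.contDiff.contDiffAt.comp _ hg'.contDiffAt
  have h2 : HasFDerivAt (fun y => L' (g' y))
      (ContinuousLinearEquiv.refl ℂ (Cm d) : Cm d →L[ℂ] Cm d) (τ z) :=
    (L'.hasFDerivAt.comp (τ z) hg'.differentiableAt.hasFDerivAt).congr_fderiv
      (ContinuousLinearMap.ext fun v => LinearMap.congr_fun hL v)
  have h4 := h1.to_localInverse h2 (by simp)
  rw [← h.self_of_nhds] at h4
  refine (h4.comp z (L'.contDiff.contDiffAt.comp z hg.contDiffAt)).congr_of_eventuallyEq ?_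
  filter_upwards [h, hτ.eventually ((h1.toOpenPartialHomeomorph _ h2 (by simp)).eventually_left_inverse
    (h1.mem_toOpenPartialHomeomorph_source h2 (by simp)))] with y k1 k2
  rw [comp_apply, comp_apply, k1]
  exact k2.symm

variable {n p d : ℕ} {X Y : Type} [TopologicalSpace X] [ChartedSpace (Cm n) X]
  [TopologicalSpace Y] [ChartedSpace (Cm p) Y]

section mk

variable {Z : Type} [TopologicalSpace Z] {i : Z → X}

variable (n) in
/-- in the chart `c` the map `i` is a holomorphic immersion -/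
def ImC (i : Z → X) (c : Chart d Z) : Prop :=
  ∀ z ∈ c.target, ∀ e : Chart n X, At e (i (c.symm z)) →
    AnalyticAt ℂ (fun z' => e (i (c.symm z'))) z ∧ Injective (fderiv ℂ (fun z' => e (i (c.symm z'))) z)

/-- charts which make the continuous map `i` an immersion -/
structure Atl (d n : ℕ) {X Z : Type} [TopologicalSpace X] [ChartedSpace (Cm n) X]
    [TopologicalSpace Z] (i : Z → X) where
  c : Z → Chart d Z
  mem : ∀ z, z ∈ (c z).source
  imm : ∀ z, ImC n i (c z)
  cont : Continuous i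

/-- the complex structure -/
@[reducible] def Atl.cs (A : Atl d n i) : ChartedSpace (Cm d) Z where
  atlas := {c | ImC n i c}
  chartAt := A.c
  mem_chart_source := A.mem
  chart_mem_atlas := A.imm

theorem Atl.isManifold (A : Atl d n i) :
    @IsManifold ℂ _ (Cm d) _ _ (Cm d) _ 𝓘(ℂ, Cm d) ω Z _ A.cs := by
  let := A.cs
  refine isManifold_of_contDiffOn 𝓘(ℂ, Cm d) ω Z fun c c' hc hc' z hz => ?_
  have hz' : z ∈ (c.symm ≫ₕ c').source := by simpa using hz.1
  have h1 : z ∈ c.target := hz'.1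
  have h2 : c.symm z ∈ c'.source := hz'.2
  have hA := at_chart (n := n) (i (c.symm z))
  have h3 := (hc' : ImC n i c') _ (c'.map_source h2) (chartAt (Cm n) (i (c.symm z)))
    (by rw [c'.left_inv h2]; exact hA)
  refine (an_of_comp (τ := fun z => c' (c.symm z)) h3.1 h3.2 ((hc : ImC n i c) z h1 _ hA).1
    ((c'.continuousAt h2).comp (c.continuousAt_symm h1)) ?_).contDiffWithinAt
  filter_upwards [(c.continuousAt_symm h1).eventually (c'.open_source.mem_nhds h2)] with y hy
  rw [c'.left_inv hy]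

/-- the manifold -/
def Atl.mf [T2Space Z] [CompactSpace Z] (A : Atl d n i) : Mf d :=
  { X := Z, ch := A.cs, mf := A.isManifold }

theorem Atl.imm' [T2Space Z] [CompactSpace Z] (A : Atl d n i) (z : A.mf.X) :
    Imm d n (X := A.mf.X) i z := fun c e hc he =>
  ((hc.1 : ImC n i c) _ hc.mem_target e (hc.left_inv.symm ▸ he)).2

theorem Atl.hol [T2Space Z] [CompactSpace Z] [IsManifold 𝓘(ℂ, Cm n) ω X] (A : Atl d n i) :
    HolM d n (X := A.mf.X) i := fun z =>
  HolA.of_an (X := A.mf.X) A.cont.continuousAt (at_chart z) (at_chart _)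
    (A.imm z _ ((A.c z).map_source (A.mem z)) _ (((A.c z).left_inv (A.mem z)).symm ▸ at_chart _)).1

theorem exists_mf [T2Space Z] [CompactSpace Z] [IsManifold 𝓘(ℂ, Cm n) ω X] (hc : Continuous i)
    (h : ∀ z, ∃ c : Chart d Z, z ∈ c.source ∧ ImC n i c) :
    ∃ (V : Mf d) (φ : V.X ≃ₜ Z), HolM d n (fun x => i (φ x)) ∧ ∀ x, Imm d n (fun x => i (φ x)) x := by
  choose c h1 h2 using h
  let A : Atl d n i := ⟨c, h1, h2, hc⟩
  exact ⟨A.mf, Homeomorph.refl Z, A.hol, A.imm'⟩

end mk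

variable [IsManifold 𝓘(ℂ, Cm n) ω X] [IsManifold 𝓘(ℂ, Cm p) ω Y]

theorem Co.inj {E : Type} [NormedAddCommGroup E] [NormedSpace ℂ E] {Θ : OpenPartialHomeomorph X E}
    (h : Co n Θ) {v : E} (hv : v ∈ Θ.target) {e : Chart n X} (he : At e (Θ.symm v)) :
    Injective (fderiv ℂ (fun v => e (Θ.symm v)) v) := by
  have h1 := (h.an _ (Θ.map_target hv) e he).differentiableAt.hasFDerivAt.comp v
    (h.inv v hv e he).differentiableAt.hasFDerivAt
  refine LeftInverse.injective (g := fderiv ℂ (fun z => Θ (e.symm z)) (e (Θ.symm v))) fun w =>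
    DFunLike.congr_fun (h1.unique ((hasFDerivAt_id v).congr_of_eventuallyEq ?_)) w
  filter_upwards [Θ.open_target.mem_nhds hv, (Θ.continuousAt_symm hv).eventually (at_near he)]
    with u k1 k2
  rw [comp_apply, k2.left_inv, Θ.right_inv k1, id]

theorem SubM.chart {S : Set X} (h : SubM n d S) (x : S) :
    ∃ c : Chart d S, x ∈ c.source ∧ ImC n Subtype.val c := by
  obtain ⟨k, g, h1, h2, h3⟩ := h x x.2
  obtain ⟨Θ, k1, k2, k3, k4⟩ := exists_co h2 (d := d) (by simpa [add_comm] using h1) h3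
  obtain ⟨c, l1, l2⟩ := P277Z.Slc.Cv.slice Θ (Z := S) (fun y hy => by
    rw [k4 y hy, funext_iff]
    exact k3 hy) x
  refine ⟨c, l1 ▸ k2, fun s hs e he => ?_⟩
  have m1 : (fun s' => e (c.symm s' : X)) =ᶠ[𝓝 s] fun s' => e (Θ.symm (0, s')) := by
    filter_upwards [c.open_target.mem_nhds hs] with s' hs'
    rw [(l2 s' hs').2]
  rw [(l2 s hs).2] at he
  have m2 := k1.inv _ (l2 s hs).1 e he
  refine ⟨(m2.fun_comp (f := fun s' => (0, s')) (analyticAt_const.prod analyticAt_id)).congr m1.symm,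
    ?_⟩
  have m3 : HasFDerivAt (fun s' => e (Θ.symm (0, s'))) _ s :=
    m2.differentiableAt.hasFDerivAt.comp s (hasFDerivAt_prodMk_right 0 s)
  rw [m1.fderiv_eq, m3.fderiv]
  exact (k1.inj (l2 s hs).1 he).comp (Prod.mk_right_injective 0)

theorem SubM.emb [T2Space X] {S : Set X} (h : SubM n d S) (hc : IsCompact S) :
    ∃ (V : Mf d) (i : V.X → X), Emb d n i S := by
  have := isCompact_iff_compactSpace.1 hc
  obtain ⟨V, φ, h1, h2⟩ := exists_mf continuous_subtype_val h.chart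
  exact ⟨V, _, h1, Subtype.val_injective.comp φ.injective, h2,
    (φ.surjective.range_comp Subtype.val).trans Subtype.range_coe⟩

theorem subm : SUBM := fun _ _ _ _ hc h => h.emb hc.isCompact

theorem kah_of_imm {i : X → Y} (hi : HolM n p i) (h : ∀ x, Imm n p i x)
    {w : Chart p Y → Cm p → Matrix (Fin p) (Fin p) ℂ} (hw : IsKahler w) :
    IsKahler (P299.D.pullM i w : Chart n X → _) :=
  P299.H956.isKahler_pullM hw hi fun e e' y he he' u hu =>
    (injective_iff_map_eq_zero _).1 (h y e e' he he') u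
      ((P299.H956.jmR_mulVec ((hi.at y).an he he').differentiableAt u).trans hu)

theorem kim : KIM := fun _ _ _ _ _ hi h ⟨_, hw⟩ => ⟨_, kah_of_imm hi h hw⟩

theorem Emb.kah {V : Mf n} {M : Mf p} {i : V.X → M.X} {S : Set M.X} (h : Emb n p i S)
    (hM : M.Kah) : V.Kah := kim _ _ _ _ i h.hol h.imm hM

theorem Rk.le {O : Set X} {L : Bd X} {j : ℕ} {s : Fin (j + 1) → L.ι → X → ℂ} (h : Rk n O L s) :
    j ≤ n :=
  let ⟨_, _, _, _, _, k⟩ := h
  Fintype.card_fin j ▸ ind_le k

theorem Rk.mono {O : Set X} {L : Bd X} {j j' : ℕ} {s : Fin (j' + 1) → L.ι → X → ℂ}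
    (h : Rk n O L s) (k : j ≤ j') : Rk n O L fun b => s (Fin.castLE (Nat.succ_le_succ k) b) :=
  let ⟨x, h1, a, h2, h3, h4⟩ := h
  ⟨x, h1, a, h2, h3, h4.comp (Fin.castLE k) (Fin.castLE_injective k)⟩

section kap

variable {i : X → Y} {L : Bd X} {κ : Type} [Fintype κ] {G : κ → Set Y} {c : κ → ℝ} {m j j' : ℕ}

theorem KapM.le (h : KapM n p i L G c m j) : j ≤ n :=
  let ⟨_, _, k⟩ := h
  k.le

theorem KapL.le (h : KapL n p i L G c j) : j ≤ n :=
  let ⟨_, _, k⟩ := h
  k.le

theorem KapM.mono (h : KapM n p i L G c m j') (k : j ≤ j') : KapM n p i L G c m j :=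
  let ⟨_, h1, h2⟩ := h
  ⟨_, fun _ => h1 _, h2.mono k⟩

theorem KapL.mono (h : KapL n p i L G c j') (k : j ≤ j') : KapL n p i L G c j :=
  let ⟨m, h1, h2⟩ := h
  ⟨m, h1, h2.mono k⟩

end kap

theorem dim : DIM := fun _ _ _ _ _ h =>
  let ⟨_, _, _, _, _, k⟩ := Oft.ex h neg_empty
  k.le

theorem mono : MONO := fun _ _ _ _ _ k h => KapL.mono h k

theorem Fb.Fib.mono {M : Fb n p} {a a' : ℕ} (h : M.Fib d a') (k : a ≤ a') : M.Fib d a :=
  Oft.mono h fun _ _ l => l.mono k

theorem Fb.Tau.mono {M : Fb n p} {k k' : ℕ} (h : M.Tau k') (l : k ≤ k') : M.Tau k :=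
  let ⟨m, Q, _, h1, h2, h3, h4⟩ := h
  ⟨m, Q, _, h1, h2, fun _ => h3 _, h4.mono l⟩

theorem Fb.Tau.le {M : Fb n p} {k : ℕ} (h : M.Tau k) : k ≤ p :=
  let ⟨_, _, _, _, _, _, h4⟩ := h
  h4.le

/-! ### open and closed subsets -/

theorem subM_open {S : Set X} (h : IsOpen S) : SubM n n S := fun x hx =>
  ⟨0, Fin.elim0, rfl, ⟨fun a => a.elim0, fun _ _ => linearIndependent_empty_type⟩, by
    filter_upwards [h.mem_nhds hx] with y hy using by simpa using hy⟩

theorem clopen_emb (M : Mf n) {S : Set M.X} (h : IsClopen S) :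
    ∃ (V : Mf n) (i : V.X → M.X), Emb n n i S := (subM_open h.2).emb h.1.isCompact

theorem Emb.conn [CompactSpace X] [T2Space Y] {i : X → Y} {S : Set Y} (h : Emb n p i S) :
    ConnectedSpace X ↔ IsConnected S := by
  rw [← h.rng, connectedSpace_iff_univ, ← image_univ, IsConnected, IsConnected, image_nonempty,
    h.cemb.isInducing.isPreconnected_image]

instance Mf.locConn (M : Mf n) : LocallyConnectedSpace M.X :=
  ChartedSpace.locallyConnectedSpace (Cm n) M.X

/-- the component of `x` -/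
theorem comp_emb (M : Mf n) (x : M.X) : ∃ (V : Mf n) (i : V.X → M.X), ConnectedSpace V.X ∧
    Emb n n i (connectedComponent x) :=
  let ⟨V, i, h⟩ := clopen_emb M (isClopen_connectedComponent (x := x))
  ⟨V, i, h.conn.2 isConnected_connectedComponent, h⟩

/-- all the components -/
theorem comps (M : Mf n) : ∃ (J : Type) (_ : Fintype J) (V : J → Mf n) (i : ∀ j, (V j).X → M.X),
    (∀ j, ConnectedSpace (V j).X) ∧ (∀ j, Emb n n (i j) (range (i j))) ∧
    (∀ j, IsClopen (range (i j))) ∧ (∀ x, ∃ j, x ∈ range (i j)) ∧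
    ∀ j j', j ≠ j' → Disjoint (range (i j)) (range (i j')) := by
  choose V i h1 h2 using comp_emb M
  choose r hr using ConnectedComponents.surjective_coe (α := M.X)
  refine ⟨ConnectedComponents M.X, Fintype.ofFinite _, fun j => V (r j), fun j => i (r j),
    fun j => h1 _, fun j => (h2 _).rng.symm ▸ h2 _, fun j => (h2 _).rng.symm ▸
      isClopen_connectedComponent, fun x => ⟨x, (h2 _).rng.symm ▸ ?_⟩, fun j j' k => ?_⟩
  · exact ConnectedComponents.coe_eq_coe'.1 (hr x).symm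
  · rw [(h2 _).rng, (h2 _).rng]
    exact connectedComponent_disjoint fun c => k (by
      rw [← hr j, ← hr j']
      exact ConnectedComponents.coe_eq_coe.2 c)

end Vale.Agent.P281Z
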