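import Vale.Agent.P281Z.Mf.Mod
import Vale.Agent.P281Z.Hm.Defs

/-!
# P281Z, toolbox: an atlas which is adapted to a divisor with simple normal crossings
-/

open scoped Manifold ContDiff Topology
open Set Filter Function
open Vale.Agent.P272.K
open Vale.Agent.P277Z (Hol at_chart)
open Vale.Agent.P277Z.Slc (Ind LEq Snc)

set_option linter.unusedSectionVars false

noncomputable section

namespace Vale.Agent.P281Z

variable {n : ℕ} {X : Type} [TopologicalSpace X] [ChartedSpace (Cm n) X]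
  [IsManifold 𝓘(ℂ, Cm n) ω X]

theorem Co.imC {c : Chart n X} (h : Co n c) : ImC n (fun x : X => x) c :=
  fun z hz e he => ⟨h.inv z hz e he, h.inj hz he⟩

theorem Co.trans {E E' : Type} [NormedAddCommGroup E] [NormedSpace ℂ E] [NormedAddCommGroup E']
    [NormedSpace ℂ E'] {Θ : OpenPartialHomeomorph X E} (h : Co n Θ) (T : E ≃L[ℂ] E') :
    Co n (Θ.transHomeomorph T.toHomeomorph) :=
  ⟨fun y hy => (h.an y hy).cmp (T.analyticAt _), fun v hv e he =>
    (h.inv _ hv e he).fun_comp (T.symm.analyticAt v)⟩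

/-- coordinates which contain a given independent family -/
theorem exists_chart {α : Type} {h : α → X → ℂ} {x : X} (hi : Ind n h x) {U : Set X}
    (hU : U ∈ 𝓝 x) : ∃ (c : Chart n X) (j : α → Fin n), Co n c ∧ x ∈ c.source ∧ c.source ⊆ U ∧
      Injective j ∧ ∀ y ∈ c.source, ∀ a, c y (j a) = h a y := by
  have : Finite α := (hi.2 _ (at_chart x)).finite
  have := Fintype.ofFinite α
  have hd : Fintype.card α + (n - Fintype.card α) = n := Nat.add_sub_cancel' (ind_le hi)
  obtain ⟨Θ, h1, h2, h3, h4⟩ := exists_co hi hd hU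
  let σ : α ⊕ Fin (n - Fintype.card α) ≃ Fin n := Fintype.equivFinOfCardEq (by simpa using hd)
  let T : ((α → ℂ) × Cm (n - Fintype.card α)) ≃L[ℂ] Cm n :=
    ((LinearEquiv.sumArrowLequivProdArrow _ _ ℂ ℂ).symm.trans
      (LinearEquiv.funCongrLeft ℂ ℂ σ.symm)).toContinuousLinearEquiv
  refine ⟨_, fun a => σ (.inl a), h1.trans T, h2, h3, σ.injective.comp Sum.inl_injective,
    fun y hy a => ?_⟩
  change Sum.elim (Θ y).1 (Θ y).2 (σ.symm (σ (.inl a))) = _
  rw [σ.symm_apply_apply, h4 y hy, Sum.elim_inl]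

/-- **ADAPT** -/
theorem adapt (V : Mf n) {κ : Type} [Fintype κ] {E : κ → Set V.X} (h : Snc n E) :
    ∃ (V' : Mf n) (u : V'.X ≃ₜ V.X) (S : Hm.Snc n V'.X) (σ : Fin S.r ≃ κ), Emb n n u univ ∧
      HolM n n u.symm ∧ ∀ l, S.G l = u ⁻¹' E (σ l) := by
  classical
  choose ζ h1 h2 using h
  choose c j k1 k2 _ k4 k5 using fun x => exists_chart (h2 x) univ_mem
  let A : Atl n n fun x : V.X => x := ⟨c, k2, fun x => (k1 x).imC, continuous_id⟩
  let σ := (Fintype.equivFin κ).symm
  have hE : Emb n n (X := A.mf.X) (Y := V.X) (fun x => x) univ :=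
    ⟨A.hol, injective_id, A.imm', range_id⟩
  refine ⟨A.mf, Homeomorph.refl V.X, ⟨Fintype.card κ, fun l => E (σ l),
    fun y l => if hy : y ∈ E (σ l) then some (j y ⟨_, hy⟩) else none, fun y l l' i a b => ?_,
    fun y l => ?_⟩, σ, hE, fun x => hE.lift_at (holM_id.at x), fun _ => rfl⟩
  · split_ifs at a b
    exact σ.injective (congrArg Subtype.val (k4 y (Option.some.inj (a.trans b.symm))))
  · by_cases hy : y ∈ E (σ l)
    · filter_upwards [(h1 y (σ l)).1, (c y).open_source.mem_nhds (k2 y)] with z a b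
      refine (show ζ y (σ l) z = 0 ↔ _ from a).symm.trans ?_
      rw [dif_pos hy, ← k5 y z b ⟨_, hy⟩]
      exact ⟨fun k => ⟨_, rfl, k⟩, fun ⟨i, k, k'⟩ => Option.some.inj k ▸ k'⟩
    · filter_upwards [(h1 y (σ l)).not_mem_near hy] with z a
      rw [dif_neg hy]
      exact iff_of_false a fun ⟨_, k, _⟩ => by simp at k

end Vale.Agent.P281Z
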