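import Vale.Agent.P281Z.Mf.Mod
import Vale.Agent.P281Z.Sc.Pic

/-!
# P281Z, toolbox: smooth fibres
-/

open scoped Manifold ContDiff Topology
open Set Filter Function
open Vale.Agent.P272.K Vale.Agent.P285.H281.FD
open Vale.Agent.P277Z (Hol Nz gen at_chart trans_an hol_const)
open Vale.Agent.P277Z.Slc (Ind LEq Snc dd tr)

set_option linter.unusedSectionVars false

noncomputable section

namespace Vale.Agent.P281Z

variable {n p d q : ℕ} {X Y F Z : Type} [TopologicalSpace X] [ChartedSpace (Cm n) X]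
  [TopologicalSpace Y] [ChartedSpace (Cm p) Y] [TopologicalSpace F] [ChartedSpace (Cm d) F]
  [TopologicalSpace Z] [ChartedSpace (Cm q) Z]
  [IsManifold 𝓘(ℂ, Cm n) ω X] [IsManifold 𝓘(ℂ, Cm p) ω Y] [IsManifold 𝓘(ℂ, Cm d) ω F]
  [IsManifold 𝓘(ℂ, Cm q) ω Z]
  {f : X → Y} {i : F → X} {y : Y} {x : F} {κ : Type} {G : κ → Set X}

/-- a point of a modification where it is an immersion is alone in its fibre -/
theorem Modif.inj_imm {X₁ : Type} [TopologicalSpace X₁] [ChartedSpace (Cm n) X₁]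
    [IsManifold 𝓘(ℂ, Cm n) ω X₁] [CompactSpace X₁] [T2Space X₁] [T2Space X] {u : X₁ → X}
    {B : Set X} (h : Modif n u B) {x x' : X₁} (hx : Imm n n u x) (k : u x' = u x) : x' = x := by
  obtain ⟨U, h1, h2⟩ := hx.inj (h.hol.at x)
  by_contra c
  obtain ⟨z, a, b, e⟩ := (h.conn_all (u x)).2 (interior U) {x}ᶜ isOpen_interior isOpen_compl_singleton
    (fun z _ => (eq_or_ne z x).imp (fun a : z = x => a ▸ mem_interior_iff_mem_nhds.2 h1) id)
    ⟨x, rfl, mem_interior_iff_mem_nhds.2 h1⟩ ⟨x', k, c⟩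
  exact e (h2 (interior_subset b) (mem_of_mem_nhds h1) a)

theorem RegAt.sbm (h : RegAt n p f G y) (hf : HolM n p f) (hS : Snc n G) {x : X} (hx : f x = y) :
    Sbm n p f x :=
  let ⟨ζ, h1, _⟩ := hS x
  (sbm_iff_ind (hf.at x) (at_chart _)).2
    ((h x hx _ (hx ▸ at_chart _) ζ h1).comp Sum.inr Sum.inr_injective)

theorem fib_ind {x : X} (hf : HolA n p f x) (h : Sbm n p f x) {e' : Chart p Y} (he' : At e' (f x)) :
    Ind n (fun a z => e' (f z) a - e' (f x) a) x :=
  have k := (sbm_iff_ind hf he').1 h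
  ⟨fun a => (k.1 a).sub (hol_const _ _), fun e he => by
    simpa only [P277Z.Slc.dd_sub_const] using k.2 e he⟩

theorem fib_ev {x : X} (hf : ContinuousAt f x) {e' : Chart p Y} (he' : At e' (f x)) :
    ∀ᶠ z in 𝓝 x, f z = f x ↔ ∀ a, e' (f z) a - e' (f x) a = 0 := by
  filter_upwards [hf.eventually (at_near he')] with z hz
  simp only [sub_eq_zero, ← funext_iff]
  exact ⟨fun k => k ▸ rfl, e'.injOn hz.2 he'.2⟩

theorem fib_subM (hn : n = p + d) (hf : HolM n p f) (h : ∀ x, f x = y → Sbm n p f x) :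
    SubM n d (f ⁻¹' {y}) := fun x hx => by
  obtain rfl : f x = y := hx
  exact ⟨p, _, by omega, fib_ind (hf.at x) (h x rfl) (at_chart _),
    fib_ev hf.cont.continuousAt (at_chart _)⟩

theorem fib_emb [T2Space X] [CompactSpace X] [T1Space Y] (hn : n = p + d) (hf : HolM n p f)
    (h : ∀ x, f x = y → Sbm n p f x) : ∃ (F : Mf d) (i : F.X → X), Emb d n i (f ⁻¹' {y}) :=
  (fib_subM hn hf h).emb (isClosed_singleton.preimage hf.cont).isCompact

theorem Emb.fib (hi : Emb d n i (f ⁻¹' {y})) (x : F) : f (i x) = y :=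
  (hi.rng ▸ mem_range_self x : i x ∈ f ⁻¹' {y})

/-- the tangent space of an embedded manifold, from local equations of the image -/
theorem Emb.tan [CompactSpace F] [T2Space X] {S : Set X} (hi : Emb d n i S) {α : Type} [Fintype α]
    {h : α → X → ℂ} (h1 : Ind n h (i x)) (h2 : ∀ᶠ z in 𝓝 (i x), z ∈ S ↔ ∀ a, h a z = 0) :
    Fintype.card α + d = n ∧ ∀ (c : Chart d F) (e : Chart n X), At c x → At e (i x) → ∀ v,
      (∀ a, dd (h a) e (i x) v = 0) ↔ ∃ w, df i c e x w = v := by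
  have h0 : ∀ (c : Chart d F) (e : Chart n X), At c x → At e (i x) → ∀ w a,
      dd (h a) e (i x) (df i c e x w) = 0 := fun c e hc he w a => by
    have k : ∀ᶠ z in 𝓝 x, h a (i z) = 0 :=
      (hi.hol.cont.continuousAt.eventually h2).mono fun z hz => hz.1 (hi.mem z) a
    rw [← ContinuousLinearMap.comp_apply, ← dd_comp (h1.1 a) (hi.hol.at x) hc he,
      P277Z.Slc.dd_congr k hc]
    simp [dd]
  have hk : ∀ e : Chart n X, At e (i x) → Fintype.card α + Module.finrank ℂ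
      (ContinuousLinearMap.pi fun a => dd (h a) e (i x)).toLinearMap.ker = n := fun e he => by
    have k := (ContinuousLinearMap.pi fun a => dd (h a) e (i x)).toLinearMap.finrank_range_add_finrank_ker
    rw [LinearMap.range_eq_top.2 ((P277Z.Slc.ind_iff_surj _).1 (h1.2 e he)), finrank_top] at k
    simpa using k
  have hr : ∀ (c : Chart d F) (e : Chart n X), At c x → At e (i x) →
      Module.finrank ℂ (df i c e x).toLinearMap.range = d := fun c e hc he => by
    rw [LinearMap.finrank_range_of_inj (hi.imm x c e hc he)]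
    simp
  have hle : ∀ (c : Chart d F) (e : Chart n X), At c x → At e (i x) →
      (df i c e x).toLinearMap.range ≤
        (ContinuousLinearMap.pi fun a => dd (h a) e (i x)).toLinearMap.ker := by
    rintro c e hc he _ ⟨w, rfl⟩
    exact funext (h0 c e hc he w)
  have hd : Fintype.card α + d = n := by
    have k1 := Submodule.finrank_mono (hle _ _ (at_chart x) (at_chart _))
    rw [hr _ _ (at_chart x) (at_chart _)] at k1
    have k2 := hk _ (at_chart (i x))
    obtain ⟨Θ, t1, t2, t3, t4⟩ := exists_co h1 (d := n - Fintype.card α) (by omega) h2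
    obtain ⟨r, r1, r2, r3⟩ := (hi.imm x).ret (hi.hol.at x)
    have t5 : (0, (Θ (i x)).2) = Θ (i x) :=
      Prod.ext ((t4 _ t2).trans (funext (h2.self_of_nhds.1 (hi.mem x)))).symm rfl
    have t6 : (0, (Θ (i x)).2) ∈ Θ.target := t5 ▸ Θ.map_source t2
    have t7 : Θ.symm (0, (Θ (i x)).2) = i x := by rw [t5, Θ.left_inv t2]
    have t8 : AnV (n - Fintype.card α) (fun s : Cm (n - Fintype.card α) => ((0 : α → ℂ), s))
        (Θ (i x)).2 := (anV_const _ _).prod (anV_chart (at_chart _))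
    have s1 := t1.holA t8 t6
    have s2 : ∀ᶠ s in 𝓝 (Θ (i x)).2, i (r (Θ.symm (0, s))) = Θ.symm (0, s) := by
      filter_upwards [t8.cont.eventually (Θ.open_target.mem_nhds t6),
        s1.cont.eventually (t7.symm ▸ hi.ev.1 r3)] with s a b
      obtain ⟨z, hz⟩ := hi.ex ((t3 (Θ.map_target a)).2 fun l =>
        congrFun ((t4 _ (Θ.map_target a)).symm.trans (congrArg Prod.fst (Θ.right_inv a))) l)
      rw [← hz, b z hz]
    have s3 : Imm (n - Fintype.card α) n (fun s => Θ.symm (0, s)) (Θ (i x)).2 := by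
      refine .of_chart s1 (at_chart _) (at_chart _) ?_
      have m3 : HasFDerivAt (fun s' => chartAt (Cm n) (Θ.symm (0, (Θ (i x)).2)) (Θ.symm (0, s')))
          _ (Θ (i x)).2 := (t1.inv _ t6 _ (at_chart _)).differentiableAt.hasFDerivAt.comp _
        (hasFDerivAt_prodMk_right 0 _)
      refine (congrArg (fun L : Cm _ →L[ℂ] Cm n => Injective L) m3.fderiv).mpr ?_
      exact (t1.inj t6 (at_chart _)).comp (Prod.mk_right_injective 0)
    have s4 := (Imm.of_comp (hi.hol.at _) (HolA.cmp (t7.symm ▸ r2) s1)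
      (s3.cng (s2.mono fun _ => Eq.symm))).le
    omega
  refine ⟨hd, fun c e hc he v => ⟨fun k => ?_, fun ⟨w, hw⟩ => hw ▸ h0 c e hc he w⟩⟩
  have k1 := Submodule.eq_of_le_of_finrank_eq (hle c e hc he) (by
    have := hk e he
    rw [hr c e hc he]
    omega)
  exact k1.ge (funext k)

section fib

variable [CompactSpace F] [T2Space X]

theorem Emb.fib_dim (hi : Emb d n i (f ⁻¹' {y})) (hf : HolM n p f) (hs : Sbm n p f (i x)) :
    n = p + d := by
  simpa using (hi.tan (fib_ind (hf.at _) hs (at_chart _)) (by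
    simpa only [hi.fib x, mem_preimage, mem_singleton_iff] using
      fib_ev hf.cont.continuousAt (at_chart (f (i x))))).1.symm

/-- `ker df = range di` -/
theorem Emb.fib_ker (hi : Emb d n i (f ⁻¹' {y})) (hf : HolM n p f) (hs : Sbm n p f (i x))
    {c : Chart d F} {e : Chart n X} {e' : Chart p Y} (hc : At c x) (he : At e (i x))
    (he' : At e' (f (i x))) (v : Cm n) : df f e e' (i x) v = 0 ↔ ∃ w, df i c e x w = v := by
  rw [← (hi.tan (fib_ind (hf.at _) hs he') (by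
    simpa only [hi.fib x, mem_preimage, mem_singleton_iff] using
      fib_ev hf.cont.continuousAt he')).2 c e hc he v, funext_iff]
  exact forall_congr' fun a => by rw [df_apply (hf.at _) he he', P277Z.Slc.dd_sub_const]; rfl

/-- a map which is an immersion along the fibre and transversally to it is an immersion -/
theorem Emb.fib_imm (hi : Emb d n i (f ⁻¹' {y})) (hf : HolM n p f) (hs : Sbm n p f (i x))
    {u : X → Z} (hu : HolA n q u (i x)) (h1 : Imm d q (fun z => u (i z)) x)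
    (h2 : ∀ (e : Chart n X) (e' : Chart p Y) (e'' : Chart q Z), At e (i x) → At e' (f (i x)) →
      At e'' (u (i x)) → ∀ v, df u e e'' (i x) v = 0 → df f e e' (i x) v = 0) : Imm n q u (i x) :=
  fun e e'' he he'' => (injective_iff_map_eq_zero _).2 fun v hv => by
    obtain ⟨w, rfl⟩ := (hi.fib_ker hf hs (at_chart x) he (at_chart _) v).1
      (h2 e _ e'' he (at_chart _) he'' v hv)
    have k := h1 _ e'' (at_chart x) he''
    rw [df_comp hu (hi.hol.at x) (at_chart x) he he''] at k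
    rw [(injective_iff_map_eq_zero _).1 k w hv, map_zero]

theorem Emb.fib_ind (hi : Emb d n i (f ⁻¹' {y})) (hf : HolM n p f) {α : Type} {ζ : α → X → ℂ}
    {e' : Chart p Y} (he' : At e' (f (i x)))
    (h : Ind n (Sum.elim ζ fun (a : Fin p) z => e' (f z) a) (i x)) :
    Ind d (fun l z => ζ l (i z)) x := by
  have hs := (sbm_iff_ind (hf.at _) he').2 (h.comp Sum.inr Sum.inr_injective)
  have he := at_chart (n := n) (i x)
  have : Finite α := ((h.comp Sum.inl Sum.inl_injective).2 _ he).finite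
  have := Fintype.ofFinite α
  refine ⟨fun l => hi.hol.hol (h.1 (.inl l)), fun c hc => (P277Z.Slc.ind_iff_surj _).2 fun w => ?_⟩
  obtain ⟨v, hv⟩ := (P277Z.Slc.ind_iff_surj _).1 (h.2 _ he) (Sum.elim w 0)
  obtain ⟨u, rfl⟩ := (hi.fib_ker hf hs hc he he' v).1 (funext fun a =>
    (df_apply (hf.at _) he he' v a).trans (congrFun hv (.inr a)))
  exact ⟨u, funext fun l => (DFunLike.congr_fun (dd_comp (h.1 (.inl l)) (hi.hol.at x) hc he) u).trans
    (congrFun hv (.inl l))⟩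

/-- the converse -/
theorem Emb.ind_fib (hi : Emb d n i (f ⁻¹' {y})) (hf : HolM n p f) (hs : Sbm n p f (i x))
    {α : Type} {ζ : α → X → ℂ} (hζ : ∀ l, Hol n (ζ l) (i x)) {e' : Chart p Y}
    (he' : At e' (f (i x))) (h : Ind d (fun l z => ζ l (i z)) x) :
    Ind n (Sum.elim ζ fun (a : Fin p) z => e' (f z) a) (i x) := by
  have hc := at_chart (n := d) x
  have : Finite α := (h.2 _ hc).finite
  have := Fintype.ofFinite α
  refine ⟨Sum.rec hζ fun a => hf.hol (hol_chart he' a), fun e he =>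
    (P277Z.Slc.ind_iff_surj _).2 fun w => ?_⟩
  obtain ⟨v, hv⟩ := hs e e' he he' fun a => w (.inr a)
  obtain ⟨u, hu⟩ := (P277Z.Slc.ind_iff_surj _).1 (h.2 _ hc) fun l => w (.inl l) - dd (ζ l) e (i x) v
  refine ⟨v + df i (chartAt (Cm d) x) e x u, funext ?_⟩
  rintro (l | a)
  · have k := (DFunLike.congr_fun (dd_comp (hζ l) (hi.hol.at x) hc he) u).symm.trans (congrFun hu l)
    change dd (ζ l) e (i x) _ = _
    rw [map_add, show dd (ζ l) e (i x) (df i _ e x u) = _ from k, add_sub_cancel]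
  · refine (df_apply (hf.at _) he he' _ a).symm.trans ?_
    rw [map_add, (hi.fib_ker hf hs hc he he' _).2 ⟨u, rfl⟩, add_zero, hv]

theorem RegAt.dim (h : RegAt n p f G y) (hf : HolM n p f) (hS : Snc n G)
    (hi : Emb d n i (f ⁻¹' {y})) (x : F) : n = p + d := hi.fib_dim hf (h.sbm hf hS (hi.fib x))

theorem RegAt.ind (h : RegAt n p f G y) (hf : HolM n p f) (hi : Emb d n i (f ⁻¹' {y}))
    {ζ : κ → X → ℂ} (hζ : ∀ l, LEq n (G l) (i x) (ζ l)) :
    Ind d (fun (l : {l // i x ∈ G l}) z => ζ l (i z)) x :=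
  hi.fib_ind hf (at_chart _) (h _ (hi.fib x) _ (hi.fib x ▸ at_chart _) ζ hζ)

theorem RegAt.leq (h : RegAt n p f G y) (hf : HolM n p f) (hi : Emb d n i (f ⁻¹' {y}))
    {ζ : κ → X → ℂ} (hζ : ∀ l, LEq n (G l) (i x) (ζ l)) (l : κ) :
    LEq d (i ⁻¹' G l) x fun z => ζ l (i z) :=
  ⟨hi.hol.cont.continuousAt.eventually (hζ l).1, fun c hc => ⟨hi.hol.hol (hζ l).hol c hc, fun k =>
    show dd (fun z => ζ l (i z)) c x ≠ 0 from
      ((h.ind hf hi hζ).2 c hc).ne_zero ⟨l, (hζ l).mem.1 k⟩⟩⟩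

theorem RegAt.snc (h : RegAt n p f G y) (hf : HolM n p f) (hS : Snc n G)
    (hi : Emb d n i (f ⁻¹' {y})) : Snc d fun l => i ⁻¹' G l := fun x =>
  let ⟨ζ, h1, _⟩ := hS (i x)
  ⟨fun l z => ζ l (i z), h.leq hf hi h1, h.ind hf hi h1⟩

end fib

/-- one equation at a time -/
theorem RegAt.leq1 [CompactSpace F] [T2Space X] (h : RegAt n p f G y) (hf : HolM n p f)
    (hS : Snc n G) (hi : Emb d n i (f ⁻¹' {y})) {l : κ} {ζ : X → ℂ} (hζ : LEq n (G l) (i x) ζ) :
    LEq d (i ⁻¹' G l) x fun z => ζ (i z) := by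
  classical
  obtain ⟨ξ, h1, -⟩ := hS (i x)
  have k := h.leq hf hi (ζ := update ξ l ζ) (fun l' => by
    by_cases c : l' = l
    · subst c
      rwa [update_self]
    · rw [update_of_ne c]
      exact h1 l') l
  rwa [update_self] at k

/-- **FIB** -/
theorem RegAt.fib [T2Space X] [CompactSpace X] [T1Space Y] (h : RegAt n p f G y) (hn : n = p + d)
    (hf : HolM n p f) (hS : Snc n G) :
    ∃ (F : Mf d) (i : F.X → X), Emb d n i (f ⁻¹' {y}) ∧ Snc d fun l => i ⁻¹' G l :=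
  let ⟨F, i, hi⟩ := fib_emb hn hf fun _ => h.sbm hf hS
  ⟨F, i, hi, h.snc hf hS hi⟩

/-! ### the bound does not depend on the choice of the local equations -/

theorem bd_unit [Fintype κ] {T : Type} {l : Filter T} {S : T → ℝ} {c : κ → ℝ} {a b u : κ → T → ℂ}
    {u₀ : κ → ℂ} (hu : ∀ k, Tendsto (u k) l (𝓝 (u₀ k))) (h0 : ∀ k, u₀ k ≠ 0)
    (h : ∀ k, ∀ᶠ t in l, b k t = u k t * a k t) (hS : ∀ t, 0 ≤ S t) {P : T → Prop}
    (hb : ∃ C : ℝ, ∀ᶠ t in l, P t → S t * ∏ k, ‖a k t‖ ^ c k ≤ C) :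
    ∃ C : ℝ, ∀ᶠ t in l, P t → S t * ∏ k, ‖b k t‖ ^ c k ≤ C := by
  obtain ⟨C, hC⟩ := hb
  have h1 : Tendsto (fun t => ∏ k, ‖u k t‖ ^ c k) l (𝓝 (∏ k, ‖u₀ k‖ ^ c k)) :=
    tendsto_finsetProd _ fun k _ => (hu k).norm.rpow_const (.inl (norm_ne_zero_iff.2 (h0 k)))
  refine ⟨(∏ k, ‖u₀ k‖ ^ c k + 1) * C, ?_⟩
  filter_upwards [hC, eventually_all.2 h, h1.eventually (gt_mem_nhds (lt_add_one _))]
    with t k1 k2 k3 k4
  have k5 : 0 ≤ S t * ∏ k, ‖a k t‖ ^ c k := mul_nonneg (hS t) (by positivity)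
  calc S t * ∏ k, ‖b k t‖ ^ c k = (∏ k, ‖u k t‖ ^ c k) * (S t * ∏ k, ‖a k t‖ ^ c k) := by
        simp only [k2, norm_mul, Real.mul_rpow (norm_nonneg _) (norm_nonneg _),
          Finset.prod_mul_distrib]
        ring
    _ ≤ _ := mul_le_mul k3.le (k1 k4) k5 (by positivity)

theorem bd_leq [Fintype κ] {T : Type} {l : Filter T}
    {j : T → X} {x : X} (hj : Tendsto j l (𝓝 x)) {S : T → ℝ} {c : κ → ℝ} {ζ ζ' : κ → X → ℂ}
    (h : ∀ k, LEq n (G k) x (ζ k)) (h' : ∀ k, LEq n (G k) x (ζ' k)) (hS : ∀ t, 0 ≤ S t)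
    {P : T → Prop} (hb : ∃ C : ℝ, ∀ᶠ t in l, P t → S t * ∏ k, ‖ζ k (j t)‖ ^ c k ≤ C) :
    ∃ C : ℝ, ∀ᶠ t in l, P t → S t * ∏ k, ‖ζ' k (j t)‖ ^ c k ≤ C := by
  choose u h1 h2 h3 using fun k => leq_unit (h k) (h' k)
  exact bd_unit (u := fun k t => u k (j t)) (fun k => (h1 k).cont.tendsto.comp hj) h2
    (fun k => hj.eventually (h3 k)) hS hb

/-- on a regular fibre, the poles can be measured by the restricted divisors -/
theorem RegAt.secP [Fintype κ] [CompactSpace F] [T2Space X] (h : RegAt n p f G y)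
    (hf : HolM n p f) (hS : Snc n G) (hi : Emb d n i (f ⁻¹' {y})) {O : Set F} {L : Bd F} {c : κ → ℝ}
    {s : L.ι → F → ℂ} : SecP d n i O L G c s ↔ SecP d d id O L (fun l => i ⁻¹' G l) c s :=
  by
  refine ⟨fun k => ⟨k.hol, k.chg, fun a x h1 h2 ζ' h3 => ?_⟩, fun k => ⟨k.hol, k.chg,
    fun a x h1 h2 ζ h3 => k.bd a x h1 h2 (fun l z => ζ l (i z)) (h.leq hf hi h3)⟩⟩
  obtain ⟨ζ, h4, -⟩ := hS (i x)
  exact bd_leq (j := id) (S := fun z => ‖s a z‖) (P := fun z => i z ∈ off G)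
    (ζ := fun l z => ζ l (i z)) tendsto_id (h.leq hf hi h4) h3 (fun _ => norm_nonneg _)
    (k.bd a x h1 h2 ζ h4)

theorem RegAt.kapM [Fintype κ] [CompactSpace F] [T2Space X] (h : RegAt n p f G y)
    (hf : HolM n p f) (hS : Snc n G) (hi : Emb d n i (f ⁻¹' {y})) {L : Bd F} {c : κ → ℝ} {m j : ℕ} :
    KapM d n i L G c m j ↔ KapM d d id L (fun l => i ⁻¹' G l) c m j :=
  exists_congr fun _ => and_congr (forall_congr' fun _ => h.secP hf hS hi) Iff.rfl

theorem RegAt.kapL [Fintype κ] [CompactSpace F] [T2Space X] (h : RegAt n p f G y)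
    (hf : HolM n p f) (hS : Snc n G) (hi : Emb d n i (f ⁻¹' {y})) {L : Bd F} {c : κ → ℝ} {j : ℕ} :
    KapL d n i L G c j ↔ KapL d d id L (fun l => i ⁻¹' G l) c j :=
  exists_congr fun _ => and_congr_right fun _ => h.kapM hf hS hi

end Vale.Agent.P281Z
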