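import Vale.Agent.P281Z.Mf.Fib

/-!
# P281Z, toolbox: Jacobian matrices, adjunction on a smooth fibre
-/

open scoped Manifold ContDiff Topology
open Set Filter Function Matrix
open Vale.Agent.P272.K Vale.Agent.P285.H281.FD
open Vale.Agent.P277Z (Hol Nz gen at_chart trans_an hol_const)
open Vale.Agent.P277Z.Slc (Ind LEq Snc dd tr isLB_can)
open Vale.Agent.P277.HD (pull)

set_option linter.unusedSectionVars false

noncomputable section

namespace Vale.Agent.P281Z

section alg

variable {n p d : ℕ}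

/-- the determinant of the square matrix with the rows `A`, `R` -/
def detR (σ : Fin p ⊕ Fin d ≃ Fin n) (A : Matrix (Fin p) (Fin n) ℂ) (R : Matrix (Fin d) (Fin n) ℂ) :
    ℂ := ((fromRows A R).submatrix σ.symm id).det

/-- the determinant of the square matrix with the columns `N`, `B` -/
def detC (σ : Fin p ⊕ Fin d ≃ Fin n) (N : Matrix (Fin n) (Fin p) ℂ) (B : Matrix (Fin n) (Fin d) ℂ) :
    ℂ := ((fromCols N B).submatrix id σ.symm).det

variable (σ : Fin p ⊕ Fin d ≃ Fin n) {A : Matrix (Fin p) (Fin n) ℂ} {N : Matrix (Fin n) (Fin p) ℂ}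
  {B : Matrix (Fin n) (Fin d) ℂ}

theorem detR_mul_detC (h1 : A * N = 1) (h2 : A * B = 0) (R : Matrix (Fin d) (Fin n) ℂ) :
    detR σ A R * detC σ N B = (R * B).det := by
  rw [detR, detC, ← det_mul, ← submatrix_mul _ _ _ _ _ bijective_id, det_submatrix_equiv_self,
    fromRows_mul_fromCols, h1, h2, det_fromBlocks_zero₁₂, det_one, one_mul]

theorem detR_mul (A : Matrix (Fin p) (Fin n) ℂ) (R : Matrix (Fin d) (Fin n) ℂ)
    (J : Matrix (Fin n) (Fin n) ℂ) : detR σ (A * J) (R * J) = detR σ A R * J.det := by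
  rw [detR, detR, ← fromRows_mul, ← det_mul]
  rfl

theorem detR_left (T : Matrix (Fin p) (Fin p) ℂ) (A : Matrix (Fin p) (Fin n) ℂ)
    (R : Matrix (Fin d) (Fin n) ℂ) : detR σ (T * A) R = T.det * detR σ A R := by
  have h : fromRows (T * A) R =
      (fromBlocks T 0 0 1 : Matrix (Fin p ⊕ Fin d) (Fin p ⊕ Fin d) ℂ) * fromRows A R := by
    simp [fromBlocks_mul_fromRows]
  rw [detR, detR, h, submatrix_mul _ _ _ σ.symm _ σ.symm.bijective, det_mul,
    det_submatrix_equiv_self, det_fromBlocks_zero₁₂, det_one, mul_one]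

open Classical in
/-- a right inverse -/
def rinv (A : Matrix (Fin p) (Fin n) ℂ) : Matrix (Fin n) (Fin p) ℂ :=
  if h : ∃ N : Matrix (Fin n) (Fin p) ℂ, A * N = 1 then h.choose else 0

theorem mul_rinv (h : ∃ N : Matrix (Fin n) (Fin p) ℂ, A * N = 1) : A * rinv A = 1 := by
  rw [rinv, dif_pos h]
  exact h.choose_spec

end alg

variable {n p d q : ℕ} {X Y F Z : Type} [TopologicalSpace X] [ChartedSpace (Cm n) X]
  [TopologicalSpace Y] [ChartedSpace (Cm p) Y] [TopologicalSpace F] [ChartedSpace (Cm d) F]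
  [TopologicalSpace Z] [ChartedSpace (Cm q) Z]

/-- the Jacobian matrix -/
def dfM (f : X → Y) (e : Chart n X) (e' : Chart p Y) (x : X) : Matrix (Fin p) (Fin n) ℂ :=
  LinearMap.toMatrix' (df f e e' x : Cm n →ₗ[ℂ] Cm p)

section jac

variable {f f' : X → Y} {g : Y → Z} {x : X} {e e₁ : Chart n X} {e' : Chart p Y} {e'' : Chart q Z}

theorem dfM_apply (a : Fin p) (b : Fin n) : dfM f e e' x a b = df f e e' x (Pi.single b 1) a := by
  simp [dfM]

theorem dfM_mulVec (v : Cm n) : dfM f e e' x *ᵥ v = df f e e' x v := by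
  rw [dfM, ← toLin'_apply, toLin'_toMatrix']
  rfl

theorem minor_eq (I : Fin p → Fin n) : minor f e e' I x = ((dfM f e e' x).submatrix id I).det := by
  rfl

theorem dfM_congr (k : ∀ᶠ y in 𝓝 x, f y = f' y) (he : At e x) : dfM f e e' x = dfM f' e e' x := by
  rw [dfM, dfM, df_congr k he]

theorem dfM_id_self (he : At e x) : dfM (fun x : X => x) e e x = 1 := by
  rw [dfM, df_id_self he]
  exact LinearMap.toMatrix'_id

theorem dfM_const (y : Y) : dfM (fun _ : X => y) e e' x = 0 := by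
  ext a b
  simp [dfM_apply, df]

variable [IsManifold 𝓘(ℂ, Cm n) ω X] [IsManifold 𝓘(ℂ, Cm p) ω Y] [IsManifold 𝓘(ℂ, Cm q) ω Z]

theorem dfM_id (he : At e x) (he₁ : At e₁ x) : dfM (fun x : X => x) e e₁ x = jacM e e₁ x := by
  ext a b
  rw [dfM_apply, jacM_eq, jmat_apply (trans_an he₁ he).differentiableAt]
  rfl

theorem dfM_comp (hg : HolA p q g (f x)) (hf : HolA n p f x) (he : At e x) (he' : At e' (f x))
    (he'' : At e'' (g (f x))) :
    dfM (fun x => g (f x)) e e'' x = dfM g e' e'' (f x) * dfM f e e' x := by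
  rw [dfM, dfM, dfM, df_comp hg hf he he' he'', ← LinearMap.toMatrix'_comp]
  rfl

theorem dfM_chg (hf : HolA n p f x) (he : At e x) (he₁ : At e₁ x) (he' : At e' (f x)) :
    dfM f e₁ e' x = dfM f e e' x * jacM e₁ e x := by
  rw [← dfM_id he₁ he]
  exact dfM_comp (f := fun x => x) hf (holM_id.at x) he₁ he he'

theorem dfM_chg' {e₁' : Chart p Y} (hf : HolA n p f x) (he : At e x) (he' : At e' (f x))
    (he₁' : At e₁' (f x)) : dfM f e e₁' x = jacM e' e₁' (f x) * dfM f e e' x := by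
  rw [← dfM_id he' he₁']
  exact dfM_comp (g := fun y => y) (holM_id.at _) hf he he' he₁'

theorem hol_dfM (hf : HolA n p f x) (he : At e x) (he' : At e' (f x)) (a : Fin p) (b : Fin n) :
    Hol n (fun y => dfM f e e' y a b) x := by
  refine Hol.of_chart he (AnalyticAt.congr (analyticAt_pi_iff.1
    (((ContinuousLinearMap.apply ℂ (Cm p) (Pi.single b 1 : Cm n)).analyticAt _).fun_comp
      (hf.an he he').fderiv) a) ?_)
  filter_upwards [he.nhds_target] with z hz
  rw [dfM_apply, df, e.right_inv hz]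
  rfl

theorem hol_det {ι : Type} [Fintype ι] [DecidableEq ι] {M : X → Matrix ι ι ℂ}
    (h : ∀ a b, Hol n (fun y => M y a b) x) : Hol n (fun y => (M y).det) x := by
  simp only [det_apply']
  exact Hol.sum _ fun τ _ => (hol_const _ _).mul (Hol.prod _ fun a _ => h _ _)

theorem hol_minor (hf : HolA n p f x) (he : At e x) (he' : At e' (f x)) (I : Fin p → Fin n) :
    Hol n (minor f e e' I) x := by
  rw [show minor f e e' I = _ from funext fun y => minor_eq (x := y) I]
  exact hol_det fun a b => hol_dfM hf he he' a (I b)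

theorem Sbm.rinv (hs : Sbm n p f x) (he : At e x) (he' : At e' (f x)) :
    dfM f e e' x * rinv (dfM f e e' x) = 1 := by
  obtain ⟨N, hN⟩ := (df f e e' x : Cm n →ₗ[ℂ] Cm p).exists_rightInverse_of_surjective
    (LinearMap.range_eq_top.2 (hs e e' he he'))
  exact mul_rinv ⟨LinearMap.toMatrix' N, by
    rw [dfM, ← LinearMap.toMatrix'_comp, hN, LinearMap.toMatrix'_id]⟩

theorem imm_iff_det {Y : Type} [TopologicalSpace Y] [ChartedSpace (Cm n) Y]
    [IsManifold 𝓘(ℂ, Cm n) ω Y] {f : X → Y} {e' : Chart n Y} (hf : HolA n n f x) (he : At e x)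
    (he' : At e' (f x)) : Imm n n f x ↔ (dfM f e e' x).det ≠ 0 := by
  have h : Injective (df f e e' x) ↔ (dfM f e e' x).det ≠ 0 := by
    rw [← isUnit_iff_ne_zero, ← isUnit_iff_isUnit_det, ← mulVec_injective_iff_isUnit,
      show (dfM f e e' x).mulVec = df f e e' x from funext dfM_mulVec]
  exact ⟨fun k => h.1 (k e e' he he'), fun k => .of_chart hf he he' (h.2 k)⟩

end jac

/-- on the fibre, `dz_e = th • f^* dy_e' ∧ dw_c` -/
def th (σ : Fin p ⊕ Fin d ≃ Fin n) (f : X → Y) (i : F → X) (e' : Chart p Y) (c : Chart d F)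
    (e : Chart n X) (x : F) : ℂ := detC σ (rinv (dfM f e e' (i x))) (dfM i c e x)

variable [IsManifold 𝓘(ℂ, Cm n) ω X] [IsManifold 𝓘(ℂ, Cm p) ω Y] [IsManifold 𝓘(ℂ, Cm d) ω F]
  (σ : Fin p ⊕ Fin d ≃ Fin n) {f : X → Y} {i : F → X} {y : Y} {x : F} {e e₁ : Chart n X}
  {e' e₁' : Chart p Y} {c c₁ : Chart d F}

/-- the data at a point of the fibre -/
structure FibA (n p d : ℕ) {X Y F : Type} [TopologicalSpace X] [ChartedSpace (Cm n) X]
    [TopologicalSpace Y] [ChartedSpace (Cm p) Y] [TopologicalSpace F] [ChartedSpace (Cm d) F]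
    (f : X → Y) (i : F → X) (x : F) : Prop where
  hf : HolA n p f (i x)
  hi : HolA d n i x
  sbm : Sbm n p f (i x)
  imm : Imm d n i x
  cst : ∀ᶠ z in 𝓝 x, f (i z) = f (i x)

theorem FibA.near (h : FibA n p d f i x) : ∀ᶠ z in 𝓝 x, FibA n p d f i z := by
  filter_upwards [h.hi.cont.eventually h.hf.near, h.hi.near, h.hi.cont.eventually (h.sbm.near h.hf),
    h.imm.near h.hi, h.cst.eventually_nhds] with z k1 k2 k3 k4 k5
  exact ⟨k1, k2, k3, k4, k5.mono fun w hw => hw.trans k5.self_of_nhds.symm⟩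

theorem Emb.fibA (hi : Emb d n i (f ⁻¹' {y})) (hf : HolM n p f) (hs : Sbm n p f (i x)) :
    FibA n p d f i x :=
  ⟨hf.at _, hi.hol.at _, hs, hi.imm x, .of_forall fun z => (hi.fib z).trans (hi.fib x).symm⟩

/-- the characterization of `th` -/
theorem FibA.spec (h : FibA n p d f i x) (hc : At c x) (he : At e (i x)) (he' : At e' (f (i x)))
    (R : Matrix (Fin d) (Fin n) ℂ) :
    detR σ (dfM f e e' (i x)) R * th σ f i e' c e x = (R * dfM i c e x).det :=
  detR_mul_detC σ (h.sbm.rinv he he') (by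
    rw [← dfM_comp h.hf h.hi hc he he', dfM_congr h.cst hc, dfM_const]) R

theorem FibA.linv (h : FibA n p d f i x) (hc : At c x) (he : At e (i x)) :
    ∃ R : F → Matrix (Fin d) (Fin n) ℂ, (∀ a b, Hol d (fun z => R z a b) x) ∧
      ∀ᶠ z in 𝓝 x, R z * dfM i c e z = 1 := by
  obtain ⟨r, r1, r2, r3⟩ := h.imm.ret h.hi
  refine ⟨fun z => dfM r e c (i z), fun a b => h.hi.hol (a := fun w => dfM r e c w a b)
    (hol_dfM r2 he (r1.symm ▸ hc) a b), ?_⟩
  filter_upwards [r3.eventually_nhds, h.hi.near, h.hi.cont.eventually r2.near, at_near hc,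
    h.hi.cont.eventually (at_near he)] with z k1 k2 k3 k4 k5
  rw [← dfM_comp k3 k2 k4 k5 (k1.self_of_nhds.symm ▸ k4), dfM_congr k1 k4, dfM_id_self k4]

theorem FibA.ne (h : FibA n p d f i x) (hc : At c x) (he : At e (i x)) (he' : At e' (f (i x))) :
    th σ f i e' c e x ≠ 0 := by
  obtain ⟨R, -, h2⟩ := h.linv hc he
  refine right_ne_zero_of_mul_eq_one (a := detR σ (dfM f e e' (i x)) (R x)) ?_
  rw [h.spec σ hc he he', h2.self_of_nhds, det_one]

theorem FibA.hol (h : FibA n p d f i x) (hc : At c x) (he : At e (i x)) (he' : At e' (f (i x))) :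
    Hol d (th σ f i e' c e) x := by
  obtain ⟨R, h1, h2⟩ := h.linv hc he
  have h3 : ∀ᶠ z in 𝓝 x, detR σ (dfM f e e' (i z)) (R z) * th σ f i e' c e z = 1 := by
    filter_upwards [h2, h.near, at_near hc, h.hi.cont.eventually (at_near he), h.cst]
      with z k1 k2 k3 k4 k5
    rw [k2.spec σ k3 k4 (k5.symm ▸ he'), k1, det_one]
  have h4 : Hol d (fun z => detR σ (dfM f e e' (i z)) (R z)) x := by
    refine hol_det fun a b => ?_
    simp only [submatrix_apply, id]
    rcases σ.symm a with a | a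
    · exact h.hi.hol (a := fun w => dfM f e e' w a b) (hol_dfM h.hf he he' a b)
    · exact h1 a b
  exact (h4.inv (left_ne_zero_of_mul_eq_one h3.self_of_nhds)).congr
    (h3.mono fun z hz => (eq_inv_of_mul_eq_one_right hz).symm)

theorem FibA.chgF (h : FibA n p d f i x) (hc : At c x) (hc₁ : At c₁ x) (he : At e (i x))
    (he' : At e' (f (i x))) : th σ f i e' c e x = (jacM c c₁ x).det * th σ f i e' c₁ e x := by
  obtain ⟨R, -, h2⟩ := h.linv hc₁ he
  have h3 := h.spec σ hc₁ he he' (R x)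
  have h4 := h.spec σ hc he he' (R x)
  rw [h2.self_of_nhds, det_one] at h3
  rw [dfM_chg h.hi hc₁ hc he, ← Matrix.mul_assoc, h2.self_of_nhds, Matrix.one_mul] at h4
  rw [← h4, mul_right_comm, h3, one_mul]

theorem FibA.chgX (h : FibA n p d f i x) (hc : At c x) (he : At e (i x)) (he₁ : At e₁ (i x))
    (he' : At e' (f (i x))) : th σ f i e' c e x * (jacM e e₁ (i x)).det = th σ f i e' c e₁ x := by
  obtain ⟨R, -, h2⟩ := h.linv hc he₁
  have h3 := h.spec σ hc he₁ he' (R x)
  have h4 := h.spec σ hc he he' (R x * jacM e e₁ (i x))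
  rw [h2.self_of_nhds, det_one] at h3
  rw [dfM_chg h.hf he₁ he he', detR_mul, Matrix.mul_assoc, ← dfM_chg' h.hi hc he he₁,
    h2.self_of_nhds, det_one] at h4
  refine mul_left_cancel₀ (left_ne_zero_of_mul_eq_one h3) ?_
  rw [h3, ← h4]
  ring

theorem FibA.chgY (h : FibA n p d f i x) (hc : At c x) (he : At e (i x)) (he' : At e' (f (i x)))
    (he₁' : At e₁' (f (i x))) :
    th σ f i e' c e x = (jacM e' e₁' (f (i x))).det * th σ f i e₁' c e x := by
  obtain ⟨R, -, h2⟩ := h.linv hc he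
  have h3 := h.spec σ hc he he' (R x)
  have h4 := h.spec σ hc he he₁' (R x)
  rw [h2.self_of_nhds, det_one] at h3 h4
  rw [dfM_chg' h.hf he he' he₁', detR_left] at h4
  refine mul_left_cancel₀ (left_ne_zero_of_mul_eq_one h3) ?_
  rw [h3, ← h4]
  ring

/-- **ADJ** -/
theorem adj (hi : Emb d n i (f ⁻¹' {y})) (hf : HolM n p f) (hs : ∀ x, f x = y → Sbm n p f x)
    (he' : At e' y) : LRel d (Bd.can d F) (pull i (Bd.can n X)) (th σ f i e') :=
  have h : ∀ x, FibA n p d f i x := fun x => hi.fibA hf (hs _ (hi.fib x))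
  have k : ∀ x, At e' (f (i x)) := fun x => (hi.fib x).symm ▸ he'
  ⟨fun _ _ x hc he => (h x).hol σ hc he (k x), fun _ _ x hc he => (h x).ne σ hc he (k x),
    fun _ _ _ _ x hc hc₁ he he₁ => ((h x).chgX σ hc he he₁ (k x)).trans
      ((h x).chgF σ hc hc₁ he₁ (k x))⟩

/-- the standard numbering -/
def sig (h : n = p + d) : Fin p ⊕ Fin d ≃ Fin n := finSumFinEquiv.trans (finCongr h.symm)

theorem adj_iso [CompactSpace F] [T2Space X] (hi : Emb d n i (f ⁻¹' {y})) (hf : HolM n p f)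
    (hs : ∀ x, f x = y → Sbm n p f x) : LIso d (Bd.can d F) (pull i (Bd.can n X)) := by
  cases isEmpty_or_nonempty F with
  | inl h => exact ⟨fun _ _ _ => 1, fun _ _ x => h.elim x, fun _ _ x => h.elim x,
      fun _ _ _ _ x => h.elim x⟩
  | inr h => exact h.elim fun x => ⟨_, adj (sig (hi.fib_dim hf (hs _ (hi.fib x)))) hi hf hs
      (at_chart y)⟩

end Vale.Agent.P281Z
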