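import Vale.Agent.P281Z.Mf.Sub

/-!
# P281Z, toolbox: modifications and fibrations
-/

open scoped Manifold ContDiff Topology
open Set Filter Function
open Vale.Agent.P272.K Vale.Agent.P285.H281.FD
open Vale.Agent.P277Z (Hol Nz gen at_chart trans_an hol_const)
open Vale.Agent.P277Z.Slc (Ind LEq Snc dd tr)

set_option linter.unusedSectionVars false

noncomputable section

namespace Vale.Agent.P281Z

variable {n p q : ℕ} {X Y Z : Type} [TopologicalSpace X] [ChartedSpace (Cm n) X]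
  [TopologicalSpace Y] [ChartedSpace (Cm p) Y] [TopologicalSpace Z] [ChartedSpace (Cm q) Z]
  [IsManifold 𝓘(ℂ, Cm n) ω X] [IsManifold 𝓘(ℂ, Cm p) ω Y] [IsManifold 𝓘(ℂ, Cm q) ω Z]

section ovr

variable {π : X → Y} {A B : Set Y} {x x' : X}

theorem Over.inj (h : Over n p π A B) (hx : π x ∉ B) (k : π x' = π x) : x' = x :=
  (h.one _ (h.maps x) hx).unique k rfl

theorem Over.ex (h : Over n p π A B) {y : Y} (hy : y ∈ A) (hB : y ∉ B) : ∃ x, π x = y :=
  (h.one y hy hB).exists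

theorem Over.thin (h : Over n p π A B) (hB : An p B) : Thin n (π ⁻¹' B) := ⟨hB.pre h.hol, h.dense⟩

theorem Over.mono (h : Over n p π A B) {B' : Set Y} (k : B ⊆ B') (hd : Dense (π ⁻¹' B')ᶜ) :
    Over n p π A B' :=
  ⟨h.hol, h.maps, hd, fun y a b => h.one y a fun c => b (k c), fun x a => h.imm x fun c => a (k c)⟩

theorem Emb.over {S : Set Y} (h : Emb n p π S) : Over n p π S ∅ :=
  ⟨h.hol, fun x => h.rng ▸ mem_range_self x, by simp, fun y hy _ => by
    rw [← h.rng] at hy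
    obtain ⟨x, rfl⟩ := hy
    exact ⟨x, rfl, fun _ k => h.inj k⟩, fun x _ => h.imm x⟩

theorem Over.emb (h : Over n p π A ∅) : Emb n p π A :=
  ⟨h.hol, fun _ _ k => h.inj id k, fun x => h.imm x id,
    (range_subset_iff.2 h.maps).antisymm fun _ hy => h.ex hy id⟩

variable [CompactSpace X] [T2Space Y]

theorem Over.rng (h : Over n p π A B) : range π = closure (A \ B) := by
  refine subset_antisymm ?_ (closure_minimal (fun y hy => h.ex hy.1 hy.2)
    (isCompact_range h.hol.cont).isClosed)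
  rintro _ ⟨x, rfl⟩
  exact map_mem_closure h.hol.cont (h.dense x) fun y hy => ⟨h.maps y, hy⟩

theorem Over.ev (h : Over n p π A B) (hx : π x ∉ B) {P : X → Prop} (k : ∀ᶠ y in 𝓝 x, P y) :
    ∀ᶠ z in 𝓝 (π x), ∀ y, π y = z → P y :=
  h.hol.cont.isClosedMap.eventually_nhds_fiber (π x) fun _ hy => h.inj hx hy ▸ k

theorem Over.lift_at (h : Over n p π A B) {g : Z → X} {z : Z} (hz : π (g z) ∉ B)
    (hg : HolA q p (fun z => π (g z)) z) : HolA q n g z :=
  (h.imm _ hz).lift (h.hol.at _) (fun _ hU =>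
    (hg.cont.eventually (h.ev hz hU)).mono fun _ k => k _ rfl) hg

theorem Over.subM (h : Over n p π A B) (hB : IsClosed B) : SubM p n (A \ B) := fun y hy => by
  obtain ⟨x, rfl⟩ := h.ex hy.1 hy.2
  obtain ⟨c, g, h1, h2, h3, h4⟩ := (h.imm x hy.2).img (h.hol.at x)
  refine ⟨c, g, h1, h2, ?_⟩
  filter_upwards [h.ev hy.2 h3, h4 univ univ_mem, hB.isOpen_compl.mem_nhds hy.2] with z k1 k2 k3
  refine ⟨fun hz => ?_, fun hz => ?_⟩
  · obtain ⟨x', rfl⟩ := h.ex hz.1 hz.2
    exact k1 x' rfl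
  · obtain ⟨x', -, rfl⟩ := k2 hz
    exact ⟨h.maps x', k3⟩

end ovr

section conn

variable [CompactSpace X] [T2Space X] [T2Space Y] {f : X → Y}

/-- if the general fibres are connected then all of them are -/
theorem conn_all (hf : Continuous f) {S : Set Y} (hS : Thin p S) (hd : Dense (f ⁻¹' S)ᶜ)
    (h : ∀ y ∉ S, IsConnected (f ⁻¹' {y})) (y : Y) : IsConnected (f ⁻¹' {y}) := by
  have h0 : (f ⁻¹' {y}).Nonempty :=
    (isCompact_range hf).isClosed.closure_subset (closure_mono (fun z hz => (h z hz).1) (hS.2 y))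
  have hc : IsClosed (f ⁻¹' {y}) := isClosed_singleton.preimage hf
  refine ⟨h0, (isPreconnected_iff_subset_of_fully_disjoint_closed hc).2 fun u v hu hv h1 h2 => ?_⟩
  obtain ⟨U, V, hU, hV, h3, h4, h5⟩ := SeparatedNhds.of_isCompact_isCompact hu.isCompact
    hv.isCompact h2
  obtain ⟨O, k1, k2, k3, k4⟩ := hS.loc_conn y (hf.isClosedMap.eventually_nhds_fiber
    (p := fun x => x ∈ U ∪ V) y fun x hx => (hU.union hV).mem_nhds (union_subset_union h3 h4 (h1 hx)))
  have key : ∀ W : Set X, IsOpen W → IsOpen {z | f ⁻¹' {z} ⊆ W} := fun W hW =>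
    isOpen_iff_mem_nhds.2 fun z hz => hf.isClosedMap.eventually_nhds_fiber
      (p := fun x => x ∈ W) z fun x hx => hW.mem_nhds (hz hx)
  have fin : ∀ W W' : Set X, IsOpen W' → Disjoint W W' → O \ S ⊆ {z | f ⁻¹' {z} ⊆ W} ∩ Sᶜ →
      ∀ x ∈ f ⁻¹' {y}, x ∉ W' := fun W W' a b c x hx hx' => by
    obtain ⟨z, l1, l2⟩ := mem_closure_iff_nhds.1 (hd x) _ (inter_mem (a.mem_nhds hx')
      (hf.continuousAt.preimage_mem_nhds (k1.mem_nhds ((show f x = y from hx).symm ▸ k2))))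
    exact disjoint_left.1 b ((c ⟨l1.2, l2⟩).1 rfl) l1.1
  refine (k4.subset_or_subset ((key U hU).inter hS.closed.isOpen_compl)
    ((key V hV).inter hS.closed.isOpen_compl) (disjoint_left.2 fun z a b => ?_) fun z hz => ?_).imp
    (fun c x hx => (h1 hx).resolve_right fun d => fin U V hV h5 c x hx (h4 d))
    fun c x hx => (h1 hx).resolve_left fun d => fin V U hU h5.symm c x hx (h3 d)
  · obtain ⟨x, hx⟩ := (h z a.2).1
    exact disjoint_left.1 h5 (a.1 hx) (b.1 hx)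
  · exact ((h z hz.2).2.subset_or_subset hU hV h5 (k3 hz.1)).imp (fun c => ⟨c, hz.2⟩)
      fun c => ⟨c, hz.2⟩

theorem conn_pre (hf : Continuous f) (h : ∀ y, IsConnected (f ⁻¹' {y})) {T : Set Y}
    (hc : IsClosed T) (hT : IsConnected T) : IsConnected (f ⁻¹' T) :=
  (hf.isClosedMap.isQuotientMap hf fun y => (h y).1).isCoinducing.isConnected_preimage_of_isClosed
    h hc hT

theorem Fibn.conn_all [ConnectedSpace X] (h : Fibn n p f) (y : Y) : IsConnected (f ⁻¹' {y}) :=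
  let ⟨_, h1, h2⟩ := h.conn
  P281Z.conn_all h.hol.cont h1 (h1.pre_surj h.hol h.surj).2 h2 y

theorem Fibn.of_all (hf : HolM n p f) (h : ∀ y, IsConnected (f ⁻¹' {y})) : Fibn n p f :=
  ⟨hf, fun y => (h y).1, ∅, thin_empty, fun y _ => h y⟩

theorem Fibn.comp_of [T1Space Z] {g : Y → Z} (hg : Fibn p q g) (hf : HolM n p f)
    (h : ∀ y, IsConnected (f ⁻¹' {y})) : Fibn n q fun x => g (f x) :=
  let ⟨S, h1, h2⟩ := hg.conn
  ⟨hg.hol.comp hf, hg.surj.comp fun y => (h y).1, S, h1, fun z hz =>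
    conn_pre hf.cont h (isClosed_singleton.preimage hg.hol.cont) (h2 z hz)⟩

theorem Fibn.comp [ConnectedSpace X] [T1Space Z] {g : Y → Z} (hg : Fibn p q g) (hf : Fibn n p f) :
    Fibn n q fun x => g (f x) := hg.comp_of hf.hol hf.conn_all

end conn

theorem Fibn.connY [ConnectedSpace X] {f : X → Y} (h : Fibn n p f) : ConnectedSpace Y :=
  h.surj.connectedSpace h.hol.cont

theorem Fb.Ok.connY {M : Fb n p} (h : M.Ok) : ConnectedSpace M.Y.X :=
  have := h.conn
  h.fibn.connY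

section modif

variable {X₁ X₂ : Type} [TopologicalSpace X₁] [ChartedSpace (Cm n) X₁] [IsManifold 𝓘(ℂ, Cm n) ω X₁]
  [TopologicalSpace X₂] [ChartedSpace (Cm n) X₂] [IsManifold 𝓘(ℂ, Cm n) ω X₂]
  {u : X₁ → X} {B : Set X} {x x' : X₁}

theorem Modif.thin (h : Modif n u B) : Thin n B := h.1

theorem Modif.hol (h : Modif n u B) : HolM n n u := h.2.hol

theorem Modif.imm (h : Modif n u B) (hx : u x ∉ B) : Imm n n u x := h.2.imm x hx

theorem Modif.sbm (h : Modif n u B) (hx : u x ∉ B) : Sbm n n u x := imm_iff_sbm.1 (h.imm hx)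

theorem Modif.inj (h : Modif n u B) (hx : u x ∉ B) (k : u x' = u x) : x' = x := h.2.inj hx k

theorem Modif.ex (h : Modif n u B) {y : X} (hy : y ∉ B) : ∃ x, u x = y := h.2.ex trivial hy

theorem Modif.thin_pre (h : Modif n u B) : Thin n (u ⁻¹' B) := h.2.thin h.1.1

theorem Modif.pre_thin (h : Modif n u B) {S : Set X} (hS : Thin n S) : Thin n (u ⁻¹' S) :=
  hS.pre h.hol (h.2.dense.mono fun _ hx => h.sbm hx)

theorem Modif.pre_neg (h : Modif n u B) {S : Set X} (hS : Neg n S) : Neg n (u ⁻¹' S) :=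
  hS.pre fun _ => h.pre_thin

theorem Modif.mono (h : Modif n u B) {B' : Set X} (hB : Thin n B') (k : B ⊆ B') : Modif n u B' :=
  ⟨hB, h.2.mono k (h.pre_thin hB).2⟩

theorem modif_id : Modif n (fun x : X => x) ∅ :=
  ⟨thin_empty, holM_id, fun _ => trivial, by simp, fun y _ _ => ⟨y, rfl, fun _ k => k⟩,
    fun x _ => imm_id x⟩

theorem Emb.modif (h : Emb n n u univ) : Modif n u ∅ := ⟨thin_empty, h.over⟩

theorem Modif.fibre (h : Modif n u B) (hx : u x ∉ B) : u ⁻¹' {u x} = {x} :=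
  ext fun _ => ⟨h.inj hx, fun k => congrArg u k⟩

/-- the image of a closed nowhere dense set is nowhere dense -/
theorem Modif.dense_img (h : Modif n u B) {S : Set X₁} (hS : Dense Sᶜ) : Dense (u '' S)ᶜ := by
  refine dense_closure.1 (h.1.2.mono fun y hy => mem_closure_iff_nhds.2 fun U hU => ?_)
  obtain ⟨x, rfl⟩ := h.ex hy
  obtain ⟨z, k1, k2⟩ := mem_closure_iff_nhds.1 (hS x) _ (h.hol.cont.continuousAt.preimage_mem_nhds
    (inter_mem hU (h.1.closed.isOpen_compl.mem_nhds hy)))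
  exact ⟨u z, k1.1, fun ⟨w, a, b⟩ => k2 (h.inj k1.2 b ▸ a)⟩

theorem Modif.comp_of {u' : X₂ → X₁} {B' : Set X₁} (h : Modif n u B) (h' : Modif n u' B')
    {C : Set X} (hC : Thin n C) (k : B ⊆ C) (k' : u '' B' ⊆ C) : Modif n (fun x => u (u' x)) C := by
  refine ⟨hC, h.hol.comp h'.hol, fun _ => trivial, (h'.pre_thin (h.pre_thin hC)).2,
    fun y _ hy => ?_, fun x hx => .comp (h.hol.at _) (h'.hol.at _) (h.imm fun c => hx (k c))
      (h'.imm fun c => hx (k' ⟨_, c, rfl⟩))⟩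
  obtain ⟨x, rfl⟩ := h.ex fun c => hy (k c)
  obtain ⟨w, rfl⟩ := h'.ex (y := x) fun c => hy (k' ⟨_, c, rfl⟩)
  exact ⟨w, rfl, fun _ a => h'.inj (fun c => hy (k' ⟨_, c, rfl⟩)) (h.inj (fun c => hy (k c)) a)⟩

variable [CompactSpace X₁] [T2Space X]

theorem Modif.surj (h : Modif n u B) : Surjective u := by
  rw [← range_eq_univ, h.2.rng, ← compl_eq_univ_sdiff, h.1.2.closure_eq]

theorem Modif.ev (h : Modif n u B) (hx : u x ∉ B) {P : X₁ → Prop} (k : ∀ᶠ y in 𝓝 x, P y) :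
    ∀ᶠ z in 𝓝 (u x), ∀ y, u y = z → P y := h.2.ev hx k

/-- the inverse map -/
theorem Modif.inv (h : Modif n u B) : ∃ v : X → X₁, (∀ y, u (v y) = y) ∧
    (∀ x, u x ∉ B → v (u x) = x) ∧ ∀ y ∉ B, HolA n n v y ∧ Imm n n v y := by
  choose v hv using h.surj
  have h1 : ∀ y, HolA n n (fun y => u (v y)) y := fun y =>
    (holM_id.at y).cng (.of_forall fun y => (hv y).symm)
  have h2 : ∀ y ∉ B, HolA n n v y := fun y hy => h.2.lift_at ((hv y).symm ▸ hy) (h1 y)
  exact ⟨v, hv, fun x hx => h.inj hx (hv _), fun y hy => ⟨h2 y hy, .of_comp (h.hol.at _) (h2 y hy)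
    ((imm_id y).cng (.of_forall fun y => (hv y).symm))⟩⟩

theorem Modif.connX [ConnectedSpace X₁] (h : Modif n u B) : ConnectedSpace X :=
  h.surj.connectedSpace h.hol.cont

variable [T2Space X₁]

theorem Modif.conn_all (h : Modif n u B) (y : X) : IsConnected (u ⁻¹' {y}) :=
  P281Z.conn_all h.hol.cont h.1 h.2.dense (fun y hy => by
    obtain ⟨x, rfl⟩ := h.ex hy
    exact h.fibre hy ▸ isConnected_singleton) y

theorem Modif.fibn (h : Modif n u B) : Fibn n n u := .of_all h.hol h.conn_all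

theorem Modif.conn [ConnectedSpace X] (h : Modif n u B) : ConnectedSpace X₁ :=
  connectedSpace_iff_univ.2 (conn_pre h.hol.cont h.conn_all isClosed_univ isConnected_univ)

theorem Fibn.modif [T1Space Y] {f : X → Y} (hf : Fibn n p f) (h : Modif n u B) :
    Fibn n p fun x => f (u x) := hf.comp_of h.hol h.conn_all

end modif

section rem

variable {V V₁ V₂ : Mf n} {u : V₁.X → V.X} {B : Set V.X}

theorem Modif.img_thin (hR : REM) (h : Modif n u B) {S : Set V₁.X} (hS : Thin n S) :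
    Thin n (u '' S) := ⟨hR _ _ _ _ u S h.hol hS.1, h.dense_img hS.2⟩

theorem Modif.img_neg (hR : REM) (h : Modif n u B) {S : Set V₁.X} (hS : Neg n S) :
    Neg n (u '' S) :=
  let ⟨H, h1, h2⟩ := hS
  ⟨fun k => u '' H k, fun k => h.img_thin hR (h1 k), image_iUnion ▸ image_mono h2⟩

theorem Modif.neg_iff (hR : REM) (h : Modif n u B) {S : Set V.X} : Neg n (u ⁻¹' S) ↔ Neg n S :=
  ⟨fun k => image_preimage_eq S h.surj ▸ h.img_neg hR k, h.pre_neg⟩

theorem Modif.comp (hR : REM) {u' : V₂.X → V₁.X} {B' : Set V₁.X} (h : Modif n u B)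
    (h' : Modif n u' B') : Modif n (fun x => u (u' x)) (B ∪ u '' B') :=
  h.comp_of h' (h.1.union (h.img_thin hR h'.1)) subset_union_left subset_union_right

end rem

end Vale.Agent.P281Z
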