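import Vale.Agent.P281Z.Spec
import Vale.Agent.P277Z.Slc.Basic
import Vale.Agent.P277Z.Luf.Hol

/-!
# P281Z, toolbox: holomorphic maps, differentials, immersions and submersions
-/

open scoped Manifold ContDiff Topology
open Set Filter Function
open Vale.Agent.P272.K Vale.Agent.P285.H281.FD
open Vale.Agent.P277Z (Hol Nz gen at_chart trans_an hol_const)
open Vale.Agent.P277Z.Slc (Ind LEq Snc dd tr)
open Vale.Agent.P277.HD (pull)

set_option linter.unusedSectionVars false

noncomputable section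

namespace Vale.Agent.P281Z

variable {n p q : ℕ} {X Y Z : Type} [TopologicalSpace X] [ChartedSpace (Cm n) X]
  [TopologicalSpace Y] [ChartedSpace (Cm p) Y] [TopologicalSpace Z] [ChartedSpace (Cm q) Z]
  {f f' : X → Y} {g : Y → Z} {x : X} {e e₁ : Chart n X} {e' e₁' : Chart p Y} {e'' : Chart q Z}

variable (n p) in
/-- `f` is holomorphic at `x` -/
abbrev HolA (f : X → Y) (x : X) : Prop := ContMDiffAt 𝓘(ℂ, Cm n) 𝓘(ℂ, Cm p) ω f x

theorem HolM.at (h : HolM n p f) (x : X) : HolA n p f x := h x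

theorem HolM.cont (h : HolM n p f) : Continuous f := ContMDiff.continuous h

theorem HolA.cont (h : HolA n p f x) : ContinuousAt f x := h.continuousAt

theorem HolM.comp (hg : HolM p q g) (hf : HolM n p f) : HolM n q fun x => g (f x) :=
  ContMDiff.comp hg hf

theorem HolA.cmp (hg : HolA p q g (f x)) (hf : HolA n p f x) : HolA n q (fun x => g (f x)) x :=
  ContMDiffAt.comp x hg hf

theorem HolA.cng (h : HolA n p f x) (k : ∀ᶠ y in 𝓝 x, f y = f' y) : HolA n p f' x :=
  h.congr_of_eventuallyEq (k.mono fun _ => Eq.symm)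

theorem holM_id : HolM n n (fun x : X => x) := contMDiff_id

theorem holM_const (y : Y) : HolM n p (fun _ : X => y) := contMDiff_const

theorem at_near (he : At e x) : ∀ᶠ y in 𝓝 x, At e y := P277Z.At.near he

theorem at_ev (he : At e x) {P : X → Prop} (h : ∀ᶠ y in 𝓝 x, P y) :
    ∀ᶠ z in 𝓝 (e x), P (e.symm z) := (P277Z.At.ev he).2 h

theorem at_map (hf : ContinuousAt f x) (he : At e x) (he' : At e' (f x)) :
    ∀ᶠ z in 𝓝 (e x), At e' (f (e.symm z)) := at_ev he (hf.eventually (at_near he'))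

theorem df_congr (k : ∀ᶠ y in 𝓝 x, f y = f' y) (he : At e x) : df f e e' x = df f' e e' x :=
  EventuallyEq.fderiv_eq ((at_ev he k).mono fun _ h => congrArg e' h)

theorem df_id (e e₁ : Chart n X) (x : X) : df (fun x : X => x) e e₁ x = tr e₁ e x := rfl

theorem df_id_self (he : At e x) : df (fun x : X => x) e e x = ContinuousLinearMap.id ℂ _ := by
  have h : (fun z => e (e.symm z)) =ᶠ[𝓝 (e x)] id := P277Z.At.right he
  exact h.fderiv_eq.trans fderiv_id

theorem Imm.cng (h : Imm n p f x) (k : ∀ᶠ y in 𝓝 x, f y = f' y) : Imm n p f' x :=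
  fun e e' he he' => by
    rw [← df_congr k he]
    exact h e e' he (by rw [k.self_of_nhds]; exact he')

theorem Sbm.cng (h : Sbm n p f x) (k : ∀ᶠ y in 𝓝 x, f y = f' y) : Sbm n p f' x :=
  fun e e' he he' => by
    rw [← df_congr k he]
    exact h e e' he (by rw [k.self_of_nhds]; exact he')

theorem Imm.le (h : Imm n p f x) : n ≤ p := by
  simpa using LinearMap.finrank_le_finrank_of_injective
    (f := (df f (chartAt (Cm n) x) (chartAt (Cm p) (f x)) x).toLinearMap)
    (h _ _ (at_chart x) (at_chart (f x)))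

theorem Sbm.le (h : Sbm n p f x) : p ≤ n := by
  simpa using LinearMap.finrank_le_finrank_of_surjective
    (f := (df f (chartAt (Cm n) x) (chartAt (Cm p) (f x)) x).toLinearMap)
    (h _ _ (at_chart x) (at_chart (f x)))

theorem imm_iff_sbm {Y : Type} [TopologicalSpace Y] [ChartedSpace (Cm n) Y] {f : X → Y} :
    Imm n n f x ↔ Sbm n n f x :=
  forall₄_congr fun e e' _ _ =>
    LinearMap.injective_iff_surjective (f := (df f e e' x : Cm n →ₗ[ℂ] Cm n))

theorem ind_le {α : Type} [Fintype α] {h : α → X → ℂ} (hi : Ind n h x) : Fintype.card α ≤ n := by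
  have h1 := (hi.2 _ (at_chart x)).fintype_card_le_finrank
  rwa [← LinearMap.toContinuousLinearMap.finrank_eq, Module.finrank_linearMap,
    Module.finrank_fin_fun, Module.finrank_self, mul_one] at h1

theorem ind_congr {α : Type} {h h' : α → X → ℂ} (hi : Ind n h x)
    (k : ∀ a, ∀ᶠ y in 𝓝 x, h a y = h' a y) : Ind n h' x :=
  ⟨fun a => (hi.1 a).congr (k a), fun e he => by
    rw [show (fun a => dd (h' a) e x) = fun a => dd (h a) e x from
      funext fun a => (P277Z.Slc.dd_congr (k a) he).symm]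
    exact hi.2 e he⟩

theorem leq_congr {G G' : Set X} {ζ ζ' : X → ℂ} (h : LEq n G x ζ) (k : ∀ᶠ y in 𝓝 x, ζ y = ζ' y)
    (k' : ∀ᶠ y in 𝓝 x, y ∈ G ↔ y ∈ G') : LEq n G' x ζ' :=
  ⟨by filter_upwards [h.1, k, k'] with y h1 h2 h3 using h2 ▸ h1.trans h3, fun e he =>
    ⟨h.hol.congr k e he, fun h0 h1 => (h.2 e he).2 (k.self_of_nhds.trans h0)
      ((P277Z.Slc.dd_congr k he).trans h1)⟩⟩

variable [IsManifold 𝓘(ℂ, Cm n) ω X] [IsManifold 𝓘(ℂ, Cm p) ω Y] [IsManifold 𝓘(ℂ, Cm q) ω Z]

theorem HolA.an (h : HolA n p f x) (he : At e x) (he' : At e' (f x)) :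
    AnalyticAt ℂ (fun z => e' (f (e.symm z))) (e x) := by
  have h1 : ContMDiffAt 𝓘(ℂ, Cm n) 𝓘(ℂ, Cm p) ω (fun z => f (e.symm z)) (e x) :=
    ContMDiffAt.comp (e x) (g := f) (by rw [he.left_inv]; exact h)
      (chart_symm_contMDiffAt he.1 he.mem_target)
  exact (contMDiffAt_iff_contDiffAt.1 (ContMDiffAt.comp (e x) (g := e')
    (by rw [he.left_inv]; exact chart_contMDiffAt he') h1)).analyticAt

theorem HolA.of_an (hc : ContinuousAt f x) (he : At e x) (he' : At e' (f x))
    (h : AnalyticAt ℂ (fun z => e' (f (e.symm z))) (e x)) : HolA n p f x := by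
  have h1 : ContMDiffAt 𝓘(ℂ, Cm n) 𝓘(ℂ, Cm p) ω (fun y => e' (f (e.symm (e y)))) x :=
    ContMDiffAt.comp x (g := fun z => e' (f (e.symm z)))
      (contMDiffAt_iff_contDiffAt.2 h.contDiffAt) (chart_contMDiffAt he)
  have h2 : ContMDiffAt 𝓘(ℂ, Cm n) 𝓘(ℂ, Cm p) ω (fun y => e'.symm (e' (f (e.symm (e y))))) x :=
    ContMDiffAt.comp x (g := e'.symm)
      (by rw [he.left_inv]; exact chart_symm_contMDiffAt he'.1 he'.mem_target) h1
  refine HolA.cng h2 ?_
  filter_upwards [at_near he, hc.eventually (at_near he')] with y k1 k2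
  rw [k1.left_inv, k2.left_inv]

theorem hol_chart (he : At e x) (a : Fin n) : Hol n (fun y => e y a) x := fun _ he' =>
  analyticAt_pi_iff.1 (trans_an he he') a

theorem HolA.hol (h : HolA n p f x) {a : Y → ℂ} (ha : Hol p a (f x)) :
    Hol n (fun y => a (f y)) x := fun e he => by
  have he' := at_chart (n := p) (f x)
  have h1 : AnalyticAt ℂ (fun z => a ((chartAt (Cm p) (f x)).symm z))
      (chartAt (Cm p) (f x) (f (e.symm (e x)))) := by
    rw [he.left_inv]
    exact ha _ he'
  refine (h1.fun_comp (f := fun z => chartAt (Cm p) (f x) (f (e.symm z))) (h.an he he')).congr ?_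
  filter_upwards [at_map h.cont he he'] with z hz
  rw [hz.left_inv]

theorem HolM.hol (h : HolM n p f) {a : Y → ℂ} (ha : Hol p a (f x)) : Hol n (fun y => a (f y)) x :=
  (h.at x).hol ha

theorem HolA.of_hol (hc : ContinuousAt f x) (he' : At e' (f x))
    (h : ∀ a, Hol n (fun y => e' (f y) a) x) : HolA n p f x :=
  .of_an hc (at_chart x) he' (AnalyticAt.pi fun a => h a _ (at_chart x))

theorem HolA.near (h : HolA n p f x) : ∀ᶠ y in 𝓝 x, HolA n p f y := by
  have he' := at_chart (n := p) (f x)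
  have h1 : ∀ᶠ y in 𝓝 x, ∀ a, Hol n (fun y => chartAt (Cm p) (f x) (f y) a) y :=
    eventually_all.2 fun a => (h.hol (hol_chart he' a)).near
  have h2 : ∀ᶠ y in 𝓝 x, At (chartAt (Cm p) (f x)) (f y) := h.cont.eventually (at_near he')
  filter_upwards [h1, h2, h2.eventually_nhds] with y k1 k2 k3
  refine .of_hol ?_ k2 k1
  refine (((chartAt (Cm p) (f x)).continuousAt_symm k2.mem_target).comp
    (f := fun y => chartAt (Cm p) (f x) (f y)) (continuousAt_pi.2 fun a => (k1 a).cont)).congr ?_
  filter_upwards [k3] with z hz using hz.left_inv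

/-- a map given in a chart of the target -/
theorem holA_symm {F : X → Cm p} (h : ∀ a, Hol n (fun y => F y a) x) (he' : e' ∈ atlas (Cm p) Y)
    (hx : F x ∈ e'.target) : HolA n p (fun y => e'.symm (F y)) x := by
  have hF : ContinuousAt F x := continuousAt_pi.2 fun a => (h a).cont
  refine .of_hol ((e'.continuousAt_symm hx).comp hF) (At.of_target he' hx) fun a => (h a).congr ?_
  filter_upwards [hF.eventually (e'.open_target.mem_nhds hx)] with y hy
  rw [e'.right_inv hy]

theorem df_comp (hg : HolA p q g (f x)) (hf : HolA n p f x) (he : At e x) (he' : At e' (f x))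
    (he'' : At e'' (g (f x))) :
    df (fun x => g (f x)) e e'' x = (df g e' e'' (f x)).comp (df f e e' x) := by
  unfold df
  have h0 : (fun z => e'' (g (f (e.symm z)))) =ᶠ[𝓝 (e x)]
      fun z => e'' (g (e'.symm (e' (f (e.symm z))))) := by
    filter_upwards [at_map hf.cont he he'] with z hz
    rw [hz.left_inv]
  have h1 : DifferentiableAt ℂ (fun z => e'' (g (e'.symm z))) (e' (f (e.symm (e x)))) := by
    rw [he.left_inv]
    exact (hg.an he' he'').differentiableAt
  rw [h0.fderiv_eq, fderiv_fun_comp (e x) h1 (hf.an he he').differentiableAt, he.left_inv]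

theorem dd_comp {a : Y → ℂ} (ha : Hol p a (f x)) (hf : HolA n p f x) (he : At e x)
    (he' : At e' (f x)) : dd (fun x => a (f x)) e x = (dd a e' (f x)).comp (df f e e' x) := by
  unfold dd df
  have h0 : (fun z => a (f (e.symm z))) =ᶠ[𝓝 (e x)]
      fun z => a (e'.symm (e' (f (e.symm z)))) := by
    filter_upwards [at_map hf.cont he he'] with z hz
    rw [hz.left_inv]
  have h1 : DifferentiableAt ℂ (fun z => a (e'.symm z)) (e' (f (e.symm (e x)))) := by
    rw [he.left_inv]
    exact (ha e' he').differentiableAt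
  rw [h0.fderiv_eq, fderiv_fun_comp (e x) h1 (hf.an he he').differentiableAt, he.left_inv]

theorem df_apply (hf : HolA n p f x) (he : At e x) (he' : At e' (f x)) (v : Cm n) (a : Fin p) :
    df f e e' x v a = dd (fun y => e' (f y) a) e x v := by
  unfold df dd
  rw [fderiv_pi fun a => (hf.hol (hol_chart he' a) e he).differentiableAt]
  rfl

theorem df_eq_pi (hf : HolA n p f x) (he : At e x) (he' : At e' (f x)) :
    df f e e' x = ContinuousLinearMap.pi fun a => dd (fun y => e' (f y) a) e x :=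
  ContinuousLinearMap.ext fun v => funext fun a => df_apply hf he he' v a

theorem df_chart (hf : HolA n p f x) (he : At e x) (he₁ : At e₁ x) (he' : At e' (f x))
    (he₁' : At e₁' (f x)) :
    df f e₁ e₁' x = (tr e₁' e' (f x)).comp ((df f e e' x).comp (tr e e₁ x)) := by
  rw [← df_id, ← df_id, ← df_comp (f := fun x => x) hf (holM_id.at x) he₁ he he',
    ← df_comp (g := fun y => y) (holM_id.at _) hf he₁ he' he₁']

theorem tr_inj (he : At e x) (he₁ : At e₁ x) : Injective (tr e e₁ x) :=
  (LinearMap.injective_iff_surjective (f := (tr e e₁ x : Cm n →ₗ[ℂ] Cm n))).2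
    (P277Z.Slc.tr_surj he he₁)

theorem imm_id (x : X) : Imm n n (fun x : X => x) x := fun _ _ he he' => tr_inj he' he

theorem sbm_id (x : X) : Sbm n n (fun x : X => x) x := imm_iff_sbm.1 (imm_id x)

theorem Imm.of_chart (hf : HolA n p f x) (he : At e x) (he' : At e' (f x))
    (h : Injective (df f e e' x)) : Imm n p f x := fun _ _ k k' => by
  rw [df_chart hf he k he' k']
  exact (tr_inj k' he').comp (h.comp (tr_inj he k))

theorem Sbm.of_chart (hf : HolA n p f x) (he : At e x) (he' : At e' (f x))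
    (h : Surjective (df f e e' x)) : Sbm n p f x := fun _ _ k k' => by
  rw [df_chart hf he k he' k']
  exact (P277Z.Slc.tr_surj k' he').comp (h.comp (P277Z.Slc.tr_surj he k))

theorem Imm.comp (hg : HolA p q g (f x)) (hf : HolA n p f x) (h1 : Imm p q g (f x))
    (h2 : Imm n p f x) : Imm n q (fun x => g (f x)) x := fun e e'' he he'' => by
  rw [df_comp hg hf he (at_chart _) he'']
  exact (h1 _ _ (at_chart _) he'').comp (h2 _ _ he (at_chart _))

theorem Sbm.comp (hg : HolA p q g (f x)) (hf : HolA n p f x) (h1 : Sbm p q g (f x))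
    (h2 : Sbm n p f x) : Sbm n q (fun x => g (f x)) x := fun e e'' he he'' => by
  rw [df_comp hg hf he (at_chart _) he'']
  exact (h1 _ _ (at_chart _) he'').comp (h2 _ _ he (at_chart _))

theorem Imm.of_comp (hg : HolA p q g (f x)) (hf : HolA n p f x)
    (h : Imm n q (fun x => g (f x)) x) : Imm n p f x := fun e e' he he' => by
  have h1 := h e _ he (at_chart (g (f x)))
  rw [df_comp hg hf he he' (at_chart _)] at h1
  exact Injective.of_comp h1

theorem Sbm.of_comp (hg : HolA p q g (f x)) (hf : HolA n p f x)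
    (h : Sbm n q (fun x => g (f x)) x) : Sbm p q g (f x) := fun e' e'' he' he'' => by
  have h1 := h _ e'' (at_chart x) he''
  rw [df_comp hg hf (at_chart x) he' he''] at h1
  exact Surjective.of_comp h1

theorem sbm_iff_ind (hf : HolA n p f x) (he' : At e' (f x)) :
    Sbm n p f x ↔ Ind n (fun a y => e' (f y) a) x :=
  ⟨fun h => ⟨fun a => hf.hol (hol_chart he' a), fun e he =>
      (P277Z.Slc.ind_iff_surj _).2 (df_eq_pi hf he he' ▸ h e e' he he')⟩,
    fun h => .of_chart hf (at_chart x) he' (by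
      rw [df_eq_pi hf (at_chart x) he']
      exact (P277Z.Slc.ind_iff_surj _).1 (h.2 _ (at_chart x)))⟩

theorem ind_chart (he : At e x) : Ind n (fun a y => e y a) x :=
  (sbm_iff_ind (f := fun x => x) (holM_id.at x) he).1 (sbm_id x)

theorem Sbm.near (h : Sbm n p f x) (hf : HolA n p f x) : ∀ᶠ y in 𝓝 x, Sbm n p f y := by
  have he' := at_chart (n := p) (f x)
  filter_upwards [((sbm_iff_ind hf he').1 h).near, hf.near, hf.cont.eventually (at_near he')]
    with y k1 k2 k3 using (sbm_iff_ind k2 k3).2 k1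

theorem df_cont (hf : HolA n p f x) (he : At e x) (he' : At e' (f x)) :
    ContinuousAt (fun y => df f e e' y) x :=
  ContinuousAt.comp (g := fderiv ℂ fun z => e' (f (e.symm z))) (hf.an he he').fderiv.continuousAt
    (e.continuousAt he.2)

theorem Imm.near (h : Imm n p f x) (hf : HolA n p f x) : ∀ᶠ y in 𝓝 x, Imm n p f y := by
  have he := at_chart (n := n) x
  have he' := at_chart (n := p) (f x)
  filter_upwards [(df_cont hf he he').eventually
    (ContinuousLinearMap.isOpen_injective.mem_nhds (h _ _ he he')), hf.near, at_near he,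
    hf.cont.eventually (at_near he')] with y k1 k2 k3 k4 using .of_chart k2 k3 k4 k1

theorem Sbm.ind {α : Type} {h : α → Y → ℂ} (hs : Sbm n p f x) (hf : HolA n p f x)
    (hi : Ind p h (f x)) : Ind n (fun a y => h a (f y)) x := by
  refine ⟨fun a => hf.hol (hi.1 a), fun e he => ?_⟩
  have he' := at_chart (n := p) (f x)
  let T : (Cm p →L[ℂ] ℂ) →ₗ[ℂ] (Cm n →L[ℂ] ℂ) :=
    { toFun := fun L => L.comp (df f e (chartAt (Cm p) (f x)) x), map_add' := fun _ _ => rfl
      map_smul' := fun _ _ => rfl }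
  have hT : T.ker = ⊥ := LinearMap.ker_eq_bot'.2 fun L hL => by
    ext1 v
    obtain ⟨w, rfl⟩ := hs e _ he he' v
    exact congrArg (fun L : Cm n →L[ℂ] ℂ => L w) hL
  rw [show (fun a => dd (fun y => h a (f y)) e x) = T ∘ fun a => dd (h a) _ (f x) from
    funext fun a => dd_comp (hi.1 a) hf he he']
  exact (hi.2 _ he').map' T hT

theorem ind_of_comp {α : Type} {h : α → Y → ℂ} (hf : HolA n p f x) (hh : ∀ a, Hol p (h a) (f x))
    (hi : Ind n (fun a y => h a (f y)) x) : Ind p h (f x) := by
  refine ⟨hh, fun e' he' => ?_⟩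
  have he := at_chart (n := n) x
  let T : (Cm p →L[ℂ] ℂ) →ₗ[ℂ] (Cm n →L[ℂ] ℂ) :=
    { toFun := fun L => L.comp (df f (chartAt (Cm n) x) e' x), map_add' := fun _ _ => rfl
      map_smul' := fun _ _ => rfl }
  have h1 := hi.2 _ he
  rw [show (fun a => dd (fun y => h a (f y)) _ x) = T ∘ fun a => dd (h a) e' (f x) from
    funext fun a => dd_comp (hh a) hf he he'] at h1
  exact h1.of_comp T

theorem Sbm.leq {G : Set Y} {ζ : Y → ℂ} (hs : Sbm n p f x) (hf : HolA n p f x)
    (h : LEq p G (f x) ζ) : LEq n (f ⁻¹' G) x fun y => ζ (f y) := by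
  refine ⟨hf.cont.eventually h.1, fun e he => ⟨hf.hol h.hol e he, fun h0 h1 => ?_⟩⟩
  have he' := at_chart (n := p) (f x)
  refine (h.2 _ he').2 h0 (ContinuousLinearMap.ext fun v => ?_)
  obtain ⟨w, rfl⟩ := hs e _ he he' v
  exact DFunLike.congr_fun ((dd_comp h.hol hf he he').symm.trans h1) w

theorem snc_pull {κ : Type} {G : κ → Set Y} (hf : HolM n p f) (hs : ∀ x, Sbm n p f x)
    (h : Snc p G) : Snc n fun l => f ⁻¹' G l := fun x =>
  let ⟨ζ, h1, h2⟩ := h (f x)
  ⟨fun l y => ζ l (f y), fun l => (hs x).leq (hf.at x) (h1 l), (hs x).ind (hf.at x) h2⟩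

theorem HolM.lb (hf : HolM n p f) {L : Bd Y} (h : IsLB p L) : IsLB n (pull f L) where
  isOpen i := (h.isOpen i).preimage hf.cont
  cover x := h.cover (f x)
  holo i j e _ he hi hj :=
    (hf.hol (a := L.g i j) (fun e' he' => (h.holo i j e' _ he' hi hj).analyticAt) e he).contDiffAt
  ne_zero i j x := h.ne_zero i j (f x)
  cocycle i j k x := h.cocycle i j k (f x)

theorem HolM.sec (hf : HolM n p f) {L : Bd Y} {s : L.ι → Y → ℂ} (h : IsSec p L s) :
    IsSec n (pull f L) fun i x => s i (f x) where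
  holo i e _ he hi :=
    (hf.hol (a := s i) (fun e' he' => (h.holo i e' _ he' hi).analyticAt) e he).contDiffAt
  change i j x := h.change i j (f x)

end Vale.Agent.P281Z
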